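import Mathlib

/-! One-coordinate inequality for even moments in an inner product space, scalar form. -/

namespace Vale.Agent.P042.H956

open Finset

set_option autoImplicit false

/-- Core inequality, normalised. -/
lemma scal_core (k : ℕ) (hk : 1 ≤ k) (d t2 c : ℝ) (ht : 0 ≤ t2) (hc : c ^ 2 ≤ t2)
    (hd : d = 2 * c + t2) (h1 : t2 * (4 * k) ^ 2 ≤ 1) :
    (1 + d) ^ k ≤ 1 + 2 * k * c + 7 * k ^ 2 * t2 := by
  have hk1 : (1 : ℝ) ≤ k := by exact_mod_cast hk
  -- t2 ≤ 1/16 k^2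
  have ht2 : t2 ≤ 1 := by
    have : (1 : ℝ) ≤ (4 * k) ^ 2 := by nlinarith
    nlinarith
  set t := Real.sqrt t2 with ht'
  have htt : t ^ 2 = t2 := Real.sq_sqrt ht
  have ht0 : 0 ≤ t := Real.sqrt_nonneg _
  have htk : t * (4 * k) ≤ 1 := by
    have : (t * (4 * k)) ^ 2 ≤ 1 ^ 2 := by rw [mul_pow, htt]; simpa using h1
    exact le_of_sq_le_sq this (by norm_num) |> fun h => h
  have hct : |c| ≤ t := by
    rw [ht']; exact Real.abs_le_sqrt hc
  have hkt : k * t ≤ 1 / 4 := by nlinarith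
  have htq : t ≤ 1 / 4 := by nlinarith
  have hdt : |d| ≤ 9 / 4 * t := by
    rw [hd, abs_le]
    rw [abs_le] at hct
    constructor <;> nlinarith
  have hkd : |k * d| ≤ 1 := by
    rw [abs_mul, abs_of_nonneg (by linarith : (0 : ℝ) ≤ k)]
    nlinarith [abs_nonneg d]
  have h1d : 0 ≤ 1 + d := by
    rw [abs_le] at hdt
    nlinarith
  have e1 : (1 + d) ^ k ≤ Real.exp (k * d) := by
    rw [Real.exp_nat_mul]
    exact pow_le_pow_left₀ h1d (by linarith [Real.add_one_le_exp d]) k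
  have e2 : Real.exp (k * d) ≤ 1 + k * d + (k * d) ^ 2 := by
    have := Real.abs_exp_sub_one_sub_id_le hkd
    have := (abs_le.mp this).2
    linarith
  have e3 : (k * d) ^ 2 ≤ k ^ 2 * (81 / 16 * t2) := by
    rw [mul_pow, ← htt]
    have : d ^ 2 ≤ (9 / 4 * t) ^ 2 := sq_le_sq' (by linarith [(abs_le.mp hdt).1]) (abs_le.mp hdt).2
    nlinarith [sq_nonneg (k : ℝ)]
  have e4 : (k : ℝ) * t2 ≤ k ^ 2 * t2 := by nlinarith
  rw [hd] at e1 e2 e3 ⊢
  nlinarith

/-- One-coordinate scalar inequality. -/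
lemma scal (k : ℕ) (hk : 1 ≤ k) (a c s : ℝ) (ha : 0 ≤ a) (hs : 0 ≤ s) (hc : c ^ 2 ≤ a * s) :
    (a + 2 * c + s) ^ k ≤ a ^ k + 2 * k * a ^ (k - 1) * c + 7 * k ^ 2 * a ^ (k - 1) * s
      + 2 * (4 * k) ^ (2 * k) * s ^ k := by
  have hk1 : (1 : ℝ) ≤ k := by exact_mod_cast hk
  obtain ⟨j, rfl⟩ : ∃ j, k = j + 1 := ⟨k - 1, by omega⟩
  simp only [Nat.add_sub_cancel]
  have hC : (1 : ℝ) ≤ 2 * (4 * ((j + 1 : ℕ) : ℝ)) ^ (2 * (j + 1)) := by
    have : (1 : ℝ) ≤ (4 * ((j + 1 : ℕ) : ℝ)) ^ (2 * (j + 1)) := one_le_pow₀ (by linarith)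
    linarith
  rcases ha.eq_or_lt with h0 | h0
  · subst h0
    have hc0 : c = 0 := by
      have : c ^ 2 ≤ 0 := by simpa using hc
      exact pow_eq_zero_iff (two_ne_zero) |>.mp (le_antisymm this (sq_nonneg c))
    subst hc0
    have hsk : 0 ≤ s ^ (j + 1) := pow_nonneg hs _
    have h7 : (0 : ℝ) ≤ 7 * ((j + 1 : ℕ) : ℝ) ^ 2 * 0 ^ j * s := by positivity
    have : s ^ (j + 1) ≤ 2 * (4 * ((j + 1 : ℕ) : ℝ)) ^ (2 * (j + 1)) * s ^ (j + 1) := by
      nlinarith
    simp only [zero_add, mul_zero, zero_pow (Nat.succ_ne_zero j)]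
    linarith
  · set k := j + 1 with hkdef
    by_cases hcase : s * (4 * k) ^ 2 ≤ a
    · -- small s
      have hn := scal_core k hk (2 * (c / a) + s / a) (s / a) (c / a) (div_nonneg hs ha)
        (by rw [div_pow, div_le_div_iff₀ (by positivity) h0]; nlinarith) rfl
        (by rw [div_mul_eq_mul_div, div_le_one h0]; exact hcase)
      have e1 : a + 2 * c + s = a * (1 + (2 * (c / a) + s / a)) := by field_simp; ring
      rw [e1, mul_pow]
      have e2 := mul_le_mul_of_nonneg_left hn (pow_nonneg ha k)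
      refine e2.trans ?_
      have e3 : a ^ k = a ^ j * a := by rw [hkdef, pow_succ]
      have e4 : a ^ k * (1 + 2 * k * (c / a) + 7 * k ^ 2 * (s / a))
          = a ^ k + 2 * k * a ^ j * c + 7 * k ^ 2 * a ^ j * s := by
        rw [e3]; field_simp
      rw [e4]
      have : 0 ≤ 2 * (4 * (k : ℝ)) ^ (2 * k) * s ^ k := by positivity
      linarith
    · push Not at hcase
      -- a < (4k)^2 s
      have hs0 : 0 < s := by
        by_contra hcon
        have : s = 0 := le_antisymm (not_lt.mp hcon) hs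
        rw [this] at hcase; simp at hcase; linarith
      set al := Real.sqrt a with hal
      set t := Real.sqrt s with ht
      have hal2 : al ^ 2 = a := Real.sq_sqrt ha
      have ht2 : t ^ 2 = s := Real.sq_sqrt hs
      have hal0 : 0 ≤ al := Real.sqrt_nonneg _
      have ht0 : 0 ≤ t := Real.sqrt_nonneg _
      have hct : |c| ≤ al * t := by
        rw [hal, ht, ← Real.sqrt_mul ha]
        exact Real.abs_le_sqrt hc
      have halt : al ≤ 4 * k * t := by
        have : al ^ 2 ≤ (4 * k * t) ^ 2 := by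
          rw [hal2, mul_pow, ht2]; nlinarith
        exact le_of_sq_le_sq this (by positivity) |> fun h => h
      have hb0 : 0 ≤ a + 2 * c + s := by
        rw [abs_le] at hct
        nlinarith [sq_nonneg (al - t)]
      have hb1 : a + 2 * c + s ≤ (al + t) ^ 2 := by
        rw [abs_le] at hct
        nlinarith
      have hb2 : (al + t) ^ 2 ≤ ((4 * k + 1) * t) ^ 2 := by
        apply pow_le_pow_left₀ (by linarith)
        linarith
      have e1 : (a + 2 * c + s) ^ k ≤ (4 * k + 1) ^ (2 * k) * s ^ k := by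
        calc (a + 2 * c + s) ^ k ≤ (((4 * k + 1) * t) ^ 2) ^ k :=
              pow_le_pow_left₀ hb0 (hb1.trans hb2) k
          _ = (4 * k + 1) ^ (2 * k) * s ^ k := by
              rw [mul_pow, ht2, mul_pow, ← pow_mul]
      have e2 : ((4 : ℝ) * k + 1) ^ (2 * k) ≤ 2 * (4 * k) ^ (2 * k) := by
        have h4k : (0 : ℝ) < 4 * k := by linarith
        have : ((4 : ℝ) * k + 1) = (4 * k) * (1 + 1 / (4 * k)) := by field_simp
        rw [this, mul_pow]
        have h5 : (1 + 1 / (4 * (k : ℝ))) ^ (2 * k) ≤ 2 := by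
          calc (1 + 1 / (4 * (k : ℝ))) ^ (2 * k) ≤ (Real.exp (1 / (4 * k))) ^ (2 * k) :=
                pow_le_pow_left₀ (by positivity) (by
                  linarith [Real.add_one_le_exp (1 / (4 * (k : ℝ)))]) _
            _ = Real.exp (1 / 2) := by
                rw [← Real.exp_nat_mul]
                congr 1
                push_cast
                field_simp
                norm_num
            _ ≤ 2 := by
                have h6 := Real.exp_one_lt_d9
                have h7 : Real.exp (1 / 2) ^ 2 = Real.exp 1 := by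
                  rw [← Real.exp_nat_mul]; norm_num
                nlinarith [Real.exp_pos (1 / 2 : ℝ)]
        have h8 : 0 ≤ (4 * (k : ℝ)) ^ (2 * k) := by positivity
        nlinarith
      have e3 : 0 ≤ a ^ k + 2 * k * a ^ j * c + 7 * k ^ 2 * a ^ j * s := by
        have e5 : a ^ k = a ^ j * a := by rw [hkdef, pow_succ]
        have e6 : a ^ k + 2 * k * a ^ j * c + 7 * k ^ 2 * a ^ j * s
            = a ^ j * (a + 2 * k * c + 7 * k ^ 2 * s) := by rw [e5]; ring
        rw [e6]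
        refine mul_nonneg (pow_nonneg ha j) ?_
        rw [abs_le] at hct
        have h9 : -(al * t) ≤ c := hct.1
        have h10 : (2 : ℝ) * k * c ≥ 2 * k * (-(al * t)) := by
          exact mul_le_mul_of_nonneg_left h9 (by positivity)
        rw [← hal2, ← ht2]
        nlinarith [sq_nonneg (al - k * t), sq_nonneg ((k : ℝ) * t)]
      have hsk : 0 ≤ s ^ k := pow_nonneg hs k
      calc (a + 2 * c + s) ^ k ≤ (4 * k + 1) ^ (2 * k) * s ^ k := e1
        _ ≤ 2 * (4 * k) ^ (2 * k) * s ^ k := mul_le_mul_of_nonneg_right e2 hsk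
        _ ≤ _ := by linarith

/-- One-coordinate inequality, averaged. -/
lemma one_site {α : Type*} [Fintype α] (w c s : α → ℝ) (hw : ∀ v, 0 ≤ w v) (hw1 : ∑ v, w v = 1)
    (k : ℕ) (hk : 1 ≤ k) (a : ℝ) (ha : 0 ≤ a) (hs : ∀ v, 0 ≤ s v)
    (hc : ∀ v, c v ^ 2 ≤ a * s v) (h0 : ∑ v, w v * c v = 0) :
    ∑ v, w v * (a + 2 * c v + s v) ^ k
      ≤ (a + 8 * k * ∑ v, w v * s v) ^ k + 2 * (4 * k) ^ (2 * k) * ∑ v, w v * s v ^ k := by
  have hk1 : (1 : ℝ) ≤ k := by exact_mod_cast hk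
  have h1 : ∑ v, w v * (a + 2 * c v + s v) ^ k
      ≤ ∑ v, w v * (a ^ k + 2 * k * a ^ (k - 1) * c v + 7 * k ^ 2 * a ^ (k - 1) * s v
        + 2 * (4 * k) ^ (2 * k) * s v ^ k) :=
    sum_le_sum fun v _ => mul_le_mul_of_nonneg_left (scal k hk a (c v) (s v) ha (hs v) (hc v)) (hw v)
  have h2 : ∑ v, w v * (a ^ k + 2 * k * a ^ (k - 1) * c v + 7 * k ^ 2 * a ^ (k - 1) * s v
        + 2 * (4 * k) ^ (2 * k) * s v ^ k)
      = a ^ k + 7 * k ^ 2 * a ^ (k - 1) * ∑ v, w v * s v
        + 2 * (4 * k) ^ (2 * k) * ∑ v, w v * s v ^ k := by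
    have e : ∀ v, w v * (a ^ k + 2 * k * a ^ (k - 1) * c v + 7 * k ^ 2 * a ^ (k - 1) * s v
        + 2 * (4 * k) ^ (2 * k) * s v ^ k)
        = w v * a ^ k + 2 * k * a ^ (k - 1) * (w v * c v)
          + 7 * k ^ 2 * a ^ (k - 1) * (w v * s v) + 2 * (4 * k) ^ (2 * k) * (w v * s v ^ k) := by
      intro v; ring
    rw [sum_congr rfl fun v _ => e v, sum_add_distrib, sum_add_distrib, sum_add_distrib,
      ← sum_mul, ← mul_sum, ← mul_sum, ← mul_sum, hw1, h0]
    ring
  have hS : 0 ≤ ∑ v, w v * s v := sum_nonneg fun v _ => mul_nonneg (hw v) (hs v)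
  set σ := ∑ v, w v * s v with hσ
  have h3 : a ^ k + 7 * k ^ 2 * a ^ (k - 1) * σ ≤ (a + 8 * k * σ) ^ k := by
    rcases ha.eq_or_lt with h0 | h0
    · subst h0
      rcases Nat.lt_or_ge 1 k with h | h
      · have : k - 1 ≠ 0 := by omega
        rw [zero_pow (by omega), zero_pow this]
        simp only [mul_zero, zero_mul, zero_add]
        positivity
      · have : k = 1 := by omega
        subst this
        simp
        nlinarith
    · have hb := one_add_mul_le_pow (a := 8 * k * σ / a) (by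
        have : (0 : ℝ) ≤ 8 * k * σ / a := by positivity
        linarith) k
      obtain ⟨j, rfl⟩ : ∃ j, k = j + 1 := ⟨k - 1, by omega⟩
      simp only [Nat.add_sub_cancel]
      have e1 : a + 8 * ((j + 1 : ℕ) : ℝ) * σ = a * (1 + 8 * ((j + 1 : ℕ) : ℝ) * σ / a) := by
        field_simp
      rw [e1, mul_pow]
      have e2 := mul_le_mul_of_nonneg_left hb (pow_nonneg ha (j + 1))
      refine le_trans ?_ e2
      have e3 : a ^ (j + 1) * (1 + ((j + 1 : ℕ) : ℝ) * (8 * ((j + 1 : ℕ) : ℝ) * σ / a))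
          = a ^ (j + 1) + 8 * ((j + 1 : ℕ) : ℝ) ^ 2 * a ^ j * σ := by
        rw [pow_succ a j]; field_simp
      rw [e3]
      have : 0 ≤ ((j + 1 : ℕ) : ℝ) ^ 2 * a ^ j * σ := by positivity
      linarith
  linarith

end Vale.Agent.P042.H956
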