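import Vale.Agent.P042.H779.AbBasic
import Vale.Agent.P042.H956.Scal

/-! Even moments of sums of degenerate local functions on a product space, with pins. -/

namespace Vale.Agent.P042.H956

open Finset Vale.Agent.P042.H779.Ab

set_option autoImplicit false
set_option linter.unusedSectionVars false

variable {ι : Type*} [Fintype ι] [DecidableEq ι] {V : ι → Type*} [∀ i, Fintype (V i)]

/-- `y` on `F`, `x` elsewhere. -/
def ov (F : Finset ι) (y x : ∀ i, V i) : ∀ i, V i := fun i => if i ∈ F then y i else x i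

lemma ov_update_notMem (F : Finset ι) (y x : ∀ i, V i) {i : ι} (hi : i ∉ F) (a : V i) :
    ov F y (Function.update x i a) = Function.update (ov F y x) i a := by
  funext j
  by_cases hj : j = i
  · subst hj; simp [ov, hi]
  · by_cases hF : j ∈ F <;> simp [ov, hF, hj]

lemma ov_insert_update (F : Finset ι) (y x : ∀ i, V i) {i : ι} (hi : i ∉ F) (a : V i) :
    ov (insert i F) (Function.update y i a) x = ov F y (Function.update x i a) := by
  funext j
  by_cases hj : j = i
  · subst hj; simp [ov, hi]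
  · by_cases hF : j ∈ F <;> simp [ov, hF, hj]

lemma famOne {w : ∀ i, V i → ℝ} (hw : ∀ i a, 0 ≤ w i a) (hw1 : ∀ i, ∑ a, w i a = 1) :
    Fam w (fun _ _ => 1) (fun _ => True) where
  w_nonneg := hw
  w_sum := hw1
  g_nonneg := fun _ _ => zero_le_one
  g_empty := fun _ => rfl
  g_upd := fun _ _ _ _ _ => rfl
  g_avg := fun _ i _ _ _ => by simp [hw1 i]
  g_pos := fun _ _ _ _ _ _ => zero_lt_one
  ok_down := fun _ _ _ _ => trivial

section
variable (w : ∀ i, V i → ℝ) (EE : Finset (Finset ι)) (T : Finset ι → (∀ i, V i) → ℝ)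

/-- the part of `∑ T` whose trace on `U` is `G` -/
noncomputable def Yf (U G : Finset ι) (x : ∀ i, V i) : ℝ := ∑ E ∈ EE with E ∩ U = G, T E x

/-- partially squared norm -/
noncomputable def qf (B : ℝ) (U S : Finset ι) (x : ∀ i, V i) : ℝ :=
  ∑ F ∈ (U \ S).powerset, B ^ F.card * ∑ y, pw w y * (Yf EE T U (S ∪ F) (ov F y x)) ^ 2

variable {w EE T}

lemma Yf_split {U G : Finset ι} {i : ι} (hi : i ∉ U) (hG : G ⊆ U) (x : ∀ i, V i) :
    Yf EE T U G x = Yf EE T (insert i U) G x + Yf EE T (insert i U) (insert i G) x := by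
  unfold Yf
  rw [← sum_union]
  · refine sum_congr ?_ fun _ _ => rfl
    ext E
    simp only [mem_filter, mem_union]
    constructor
    · rintro ⟨hE, h⟩
      by_cases hiE : i ∈ E
      · right
        refine ⟨hE, ?_⟩
        rw [Finset.inter_insert_of_mem hiE, h]
      · left
        refine ⟨hE, ?_⟩
        rw [Finset.inter_insert_of_notMem hiE, h]
    · rintro (⟨hE, h⟩ | ⟨hE, h⟩)
      · refine ⟨hE, ?_⟩
        have hiE : i ∉ E := by
          intro hiE
          have : i ∈ E ∩ insert i U := mem_inter.mpr ⟨hiE, mem_insert_self _ _⟩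
          rw [h] at this
          exact hi (hG this)
        rw [Finset.inter_insert_of_notMem hiE] at h
        exact h
      · refine ⟨hE, ?_⟩
        have hiE : i ∈ E := by
          have : i ∈ insert i G := mem_insert_self _ _
          rw [← h] at this
          exact (mem_inter.mp this).1
        rw [Finset.inter_insert_of_mem hiE] at h
        have h1 : i ∉ E ∩ U := fun h => hi (mem_inter.mp h).2
        have h2 : i ∉ G := fun h => hi (hG h)
        rw [← Finset.erase_insert h1, h, Finset.erase_insert h2]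
  · rw [Finset.disjoint_left]
    intro E h1 h2
    rw [mem_filter] at h1 h2
    have : i ∈ insert i G := mem_insert_self _ _
    rw [← h2.2, h1.2] at this
    exact hi (hG this)

lemma Yf_indep (hloc : ∀ E ∈ EE, ∀ i, i ∉ E → Indep i (T E)) {U G : Finset ι} {i : ι}
    (hi : i ∉ G) : Indep i (Yf EE T (insert i U) G) := by
  intro x a
  unfold Yf
  refine sum_congr rfl fun E hE => ?_
  rw [mem_filter] at hE
  refine hloc E hE.1 i (fun hiE => hi ?_) x a
  rw [← hE.2]
  exact mem_inter.mpr ⟨hiE, mem_insert_self _ _⟩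

lemma Yf_cen (hcen : ∀ E ∈ EE, ∀ i ∈ E, ∀ x, ∑ a, w i a * T E (Function.update x i a) = 0)
    {U G : Finset ι} {i : ι} (x : ∀ i, V i) :
    ∑ a, w i a * Yf EE T (insert i U) (insert i G) (Function.update x i a) = 0 := by
  unfold Yf
  simp only [mul_sum]
  rw [sum_comm]
  refine sum_eq_zero fun E hE => ?_
  rw [mem_filter] at hE
  refine hcen E hE.1 i ?_ x
  have : i ∈ insert i G := mem_insert_self _ _
  rw [← hE.2] at this
  exact (mem_inter.mp this).1

lemma qf_nonneg (hw : ∀ i a, 0 ≤ w i a) {B : ℝ} (hB : 0 ≤ B) (U S : Finset ι) (x : ∀ i, V i) :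
    0 ≤ qf w EE T B U S x :=
  sum_nonneg fun _ _ => mul_nonneg (pow_nonneg hB _) (sum_nonneg fun _ _ =>
    mul_nonneg (prod_nonneg fun i _ => hw i _) (sq_nonneg _))

/-- weighted Cauchy–Schwarz for the double sums -/
lemma cs_aux {κ : Type*} {Ω : Type*} [Fintype Ω] (P : Finset κ) (b : κ → ℝ) (p : Ω → ℝ)
    (hb : ∀ F, 0 ≤ b F) (hp : ∀ y, 0 ≤ p y) (A f : κ → Ω → ℝ) :
    (∑ F ∈ P, b F * ∑ y, p y * (A F y * f F y)) ^ 2
      ≤ (∑ F ∈ P, b F * ∑ y, p y * (A F y) ^ 2) * (∑ F ∈ P, b F * ∑ y, p y * (f F y) ^ 2) := by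
  have h := Finset.sum_mul_sq_le_sq_mul_sq (P ×ˢ (univ : Finset Ω))
    (fun q => Real.sqrt (b q.1 * p q.2) * A q.1 q.2) (fun q => Real.sqrt (b q.1 * p q.2) * f q.1 q.2)
  have e1 : ∀ q : κ × Ω, Real.sqrt (b q.1 * p q.2) * A q.1 q.2 * (Real.sqrt (b q.1 * p q.2) * f q.1 q.2)
      = b q.1 * (p q.2 * (A q.1 q.2 * f q.1 q.2)) := by
    intro q
    have : Real.sqrt (b q.1 * p q.2) * Real.sqrt (b q.1 * p q.2) = b q.1 * p q.2 :=
      Real.mul_self_sqrt (mul_nonneg (hb _) (hp _))
    calc _ = (Real.sqrt (b q.1 * p q.2) * Real.sqrt (b q.1 * p q.2)) * (A q.1 q.2 * f q.1 q.2) := by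
          ring
      _ = _ := by rw [this]; ring
  have e2 : ∀ (g : κ → Ω → ℝ) (q : κ × Ω), (Real.sqrt (b q.1 * p q.2) * g q.1 q.2) ^ 2
      = b q.1 * (p q.2 * (g q.1 q.2) ^ 2) := by
    intro g q
    rw [mul_pow, Real.sq_sqrt (mul_nonneg (hb _) (hp _))]
    ring
  rw [sum_congr rfl fun q _ => e1 q, sum_congr rfl fun q _ => e2 A q,
    sum_congr rfl fun q _ => e2 f q] at h
  rw [sum_product, sum_product, sum_product] at h
  simp only [← mul_sum] at h
  exact h

lemma qf_step (hw : ∀ i a, 0 ≤ w i a) (hw1 : ∀ i, ∑ a, w i a = 1)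
    (hloc : ∀ E ∈ EE, ∀ i, i ∉ E → Indep i (T E))
    (hcen : ∀ E ∈ EE, ∀ i ∈ E, ∀ x, ∑ a, w i a * T E (Function.update x i a) = 0)
    {k : ℕ} (hk : 1 ≤ k) {U S : Finset ι} {i : ι} (hi : i ∉ U) (hS : S ⊆ U) :
    ∑ x, pw w x * qf w EE T (8 * k) U S x ^ k
      ≤ ∑ x, pw w x * qf w EE T (8 * k) (insert i U) S x ^ k
        + 2 * (4 * k) ^ (2 * k) * ∑ x, pw w x * qf w EE T (8 * k) (insert i U) (insert i S) x ^ k := by
  have F1 := famOne hw hw1
  have hiS : i ∉ S := fun h => hi (hS h)
  set B : ℝ := 8 * k with hB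
  have hB0 : 0 ≤ B := by positivity
  rw [pw_avg F1 i (fun x => qf w EE T B U S x ^ k), pw_avg F1 i
    (fun x => qf w EE T B (insert i U) (insert i S) x ^ k), mul_sum, ← sum_add_distrib]
  refine sum_le_sum fun x _ => ?_
  have hpw : 0 ≤ pw w x := prod_nonneg fun i _ => hw i _
  set A : Finset ι → (∀ i, V i) → ℝ := fun F y => Yf EE T (insert i U) (S ∪ F) (ov F y x) with hA
  set f : V i → Finset ι → (∀ i, V i) → ℝ := fun a F y =>
    Yf EE T (insert i U) (insert i (S ∪ F)) (ov F y (Function.update x i a)) with hf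
  set P := (U \ S).powerset with hP
  have hPi : ∀ F ∈ P, i ∉ F := fun F hF h => hi ((mem_sdiff.mp (mem_powerset.mp hF h)).1)
  have hPi' : ∀ F ∈ P, i ∉ S ∪ F := fun F hF h => by
    rcases mem_union.mp h with h | h
    · exact hiS h
    · exact hPi F hF h
  have hSF : ∀ F ∈ P, S ∪ F ⊆ U := fun F hF =>
    union_subset hS ((mem_powerset.mp hF).trans sdiff_subset)
  set a0 : ℝ := ∑ F ∈ P, B ^ F.card * ∑ y, pw w y * (A F y) ^ 2 with ha0
  set c : V i → ℝ := fun v => ∑ F ∈ P, B ^ F.card * ∑ y, pw w y * (A F y * f v F y) with hc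
  set s : V i → ℝ := fun v => ∑ F ∈ P, B ^ F.card * ∑ y, pw w y * (f v F y) ^ 2 with hs
  have hpwn : ∀ y, 0 ≤ pw w y := fun y => prod_nonneg fun i _ => hw i _
  have ha0n : 0 ≤ a0 := sum_nonneg fun _ _ => mul_nonneg (pow_nonneg hB0 _)
    (sum_nonneg fun y _ => mul_nonneg (hpwn y) (sq_nonneg _))
  have hsn : ∀ v, 0 ≤ s v := fun v => sum_nonneg fun _ _ => mul_nonneg (pow_nonneg hB0 _)
    (sum_nonneg fun y _ => mul_nonneg (hpwn y) (sq_nonneg _))
  have hcs : ∀ v, c v ^ 2 ≤ a0 * s v := fun v =>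
    cs_aux P (fun F => B ^ F.card) (pw w) (fun F => pow_nonneg hB0 _) hpwn A (f v)
  have hc0 : ∑ v, w i v * c v = 0 := by
    simp only [hc]
    simp only [mul_sum]
    rw [sum_comm]
    refine sum_eq_zero fun F hF => ?_
    rw [sum_comm]
    refine sum_eq_zero fun y _ => ?_
    have h1 : ∀ v, w i v * (B ^ F.card * (pw w y * (A F y * f v F y)))
        = B ^ F.card * (pw w y * A F y) * (w i v * f v F y) := fun v => by ring
    rw [sum_congr rfl fun v _ => h1 v, ← mul_sum]
    have h2 : ∑ v, w i v * f v F y = 0 := by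
      simp only [hf]
      have h3 : ∀ v, ov F y (Function.update x i v) = Function.update (ov F y x) i v :=
        fun v => ov_update_notMem F y x (hPi F hF) v
      simp only [h3]
      exact Yf_cen hcen (ov F y x)
    rw [h2, mul_zero]
  -- the three identifications
  have e1 : ∀ v, qf w EE T B U S (Function.update x i v) = a0 + 2 * c v + s v := by
    intro v
    unfold qf
    simp only [ha0, hc, hs]
    rw [mul_sum, ← sum_add_distrib, ← sum_add_distrib]
    refine sum_congr rfl fun F hF => ?_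
    have h1 : ∀ y, Yf EE T U (S ∪ F) (ov F y (Function.update x i v)) = A F y + f v F y := by
      intro y
      rw [Yf_split hi (hSF F hF)]
      simp only [hA, hf]
      rw [ov_update_notMem F y x (hPi F hF) v]
      rw [Yf_indep hloc (hPi' F hF) (ov F y x) v]
    simp only [h1]
    have h2 : ∀ y, pw w y * (A F y + f v F y) ^ 2
        = pw w y * (A F y) ^ 2 + 2 * (pw w y * (A F y * f v F y)) + pw w y * (f v F y) ^ 2 := by
      intro y; ring
    rw [sum_congr rfl fun y _ => h2 y, sum_add_distrib, sum_add_distrib, ← mul_sum]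
    ring
  have e2 : ∀ v, qf w EE T B (insert i U) (insert i S) (Function.update x i v) = s v := by
    intro v
    unfold qf
    simp only [hs]
    have h1 : (insert i U) \ (insert i S) = U \ S := by
      ext j
      simp only [mem_sdiff, mem_insert, not_or]
      constructor
      · rintro ⟨h1 | h1, h2, h3⟩
        · exact absurd h1 h2
        · exact ⟨h1, h3⟩
      · rintro ⟨h1, h2⟩
        exact ⟨Or.inr h1, fun h => hi (h ▸ h1), h2⟩
    rw [h1]
    refine sum_congr rfl fun F hF => ?_
    congr 1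
    refine sum_congr rfl fun y _ => ?_
    simp only [hf]
    rw [insert_union]
  have e3 : qf w EE T B (insert i U) S x = a0 + B * ∑ v, w i v * s v := by
    unfold qf
    have h1 : (insert i U) \ S = insert i (U \ S) := insert_sdiff_of_notMem _ hiS
    have h2 : i ∉ U \ S := fun h => hi (mem_sdiff.mp h).1
    rw [h1, sum_powerset_insert h2]
    congr 1
    have h4 : B * ∑ v, w i v * s v
        = ∑ F ∈ P, B * (B ^ F.card * ∑ y, pw w y * ∑ v, w i v * (f v F y) ^ 2) := by
      simp only [hs, mul_sum]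
      rw [sum_comm]
      refine sum_congr rfl fun F _ => ?_
      rw [sum_comm]
      refine sum_congr rfl fun y _ => sum_congr rfl fun v _ => ?_
      ring
    rw [h4]
    refine sum_congr rfl fun F hF => ?_
    rw [card_insert_of_notMem (hPi F hF), pow_succ]
    have h3 : ∑ y, pw w y * (Yf EE T (insert i U) (S ∪ insert i F) (ov (insert i F) y x)) ^ 2
        = ∑ y, pw w y * ∑ v, w i v * (f v F y) ^ 2 := by
      rw [pw_avg F1 i]
      refine sum_congr rfl fun y _ => ?_
      congr 1
      refine sum_congr rfl fun v _ => ?_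
      rw [ov_insert_update F y x (hPi F hF) v, union_insert]
    rw [h3]
    ring
  have key := one_site (fun v => w i v) c s (fun v => hw i v) (hw1 i) k hk a0 ha0n hsn hcs hc0
  have e4 : ∑ a, w i a * qf w EE T B U S (Function.update x i a) ^ k
      = ∑ v, w i v * (a0 + 2 * c v + s v) ^ k := sum_congr rfl fun v _ => by rw [e1 v]
  have e5 : ∑ a, w i a * qf w EE T B (insert i U) (insert i S) (Function.update x i a) ^ k
      = ∑ v, w i v * s v ^ k := sum_congr rfl fun v _ => by rw [e2 v]
  rw [e4, e5, e3]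
  have := mul_le_mul_of_nonneg_left key hpw
  refine this.trans (le_of_eq ?_)
  rw [hB]; ring

/-- **Even moments with pins.** -/
theorem hyp (hw : ∀ i a, 0 ≤ w i a) (hw1 : ∀ i, ∑ a, w i a = 1)
    (hloc : ∀ E ∈ EE, ∀ i, i ∉ E → Indep i (T E))
    (hcen : ∀ E ∈ EE, ∀ i ∈ E, ∀ x, ∑ a, w i a * T E (Function.update x i a) = 0)
    {k : ℕ} (hk : 1 ≤ k) :
    ∑ x, pw w x * (∑ E ∈ EE, T E x) ^ (2 * k)
      ≤ ∑ S : Finset ι, (2 * (4 * k) ^ (2 * k) : ℝ) ^ S.card
          * ∑ x, pw w x * qf w EE T (8 * k) univ S x ^ k := by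
  have main : ∀ U : Finset ι, ∑ x, pw w x * (∑ E ∈ EE, T E x) ^ (2 * k)
      ≤ ∑ S ∈ U.powerset, (2 * (4 * k) ^ (2 * k) : ℝ) ^ S.card
          * ∑ x, pw w x * qf w EE T (8 * k) U S x ^ k := by
    intro U
    induction U using Finset.induction_on with
    | empty =>
      simp only [powerset_empty, sum_singleton, card_empty, pow_zero, one_mul]
      refine le_of_eq (sum_congr rfl fun x _ => ?_)
      congr 1
      unfold qf
      have F1 := famOne hw hw1
      have h1 : ((∅ : Finset ι) \ ∅).powerset = {∅} := by simp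
      rw [h1, sum_singleton]
      simp only [card_empty, pow_zero, one_mul]
      have h2 : ∀ y, ov (∅ : Finset ι) y x = x := fun y => by funext j; simp [ov]
      simp only [h2, ← sum_mul, pw_sum F1, one_mul]
      unfold Yf
      simp only [inter_empty, union_empty, filter_true]
      rw [pow_mul]
    | insert i U hi ih =>
      refine ih.trans ?_
      rw [sum_powerset_insert hi, ← sum_add_distrib]
      refine sum_le_sum fun S hS => ?_
      have hSU := mem_powerset.mp hS
      have hiS : i ∉ S := fun h => hi (hSU h)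
      have := qf_step hw hw1 hloc hcen hk hi hSU
      rw [card_insert_of_notMem hiS, pow_succ, mul_assoc, ← mul_add]
      refine mul_le_mul_of_nonneg_left this (by positivity)
  have := main univ
  rw [powerset_univ] at this
  exact this

end

end Vale.Agent.P042.H956
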