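import Vale.Agent.P042.H779.MuBase
import Vale.Agent.P042.H482.Trunc
import Vale.Agent.P042.H956.Hyp

/-! Hoeffding components of unnormalised (pinned) measures. -/

namespace Vale.Agent.P042.H956

open Finset Vale.Agent.P042.H779.Ab
open Vale.Agent.P042.H779 (marg marg_update marg_insert_sum marg_congr)
open Vale.Agent.P042.H482 (hc nh sum_hc)

set_option autoImplicit false
set_option linter.unusedSectionVars false

variable {ι : Type*} [Fintype ι] [DecidableEq ι] {V : ι → Type*} [∀ i, Fintype (V i)]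

section fam
variable {w : ∀ i, V i → ℝ} {g : Finset ι → (∀ i, V i) → ℝ}

lemma hc_indep' (hupd : ∀ (R : Finset ι) (i : ι), i ∉ R → Indep i (g R)) {B : Finset ι} {i : ι}
    (hi : i ∉ B) : Indep i (hc g B) := by
  intro x a
  unfold hc
  refine sum_congr rfl fun A hA => ?_
  rw [hupd A i (fun h => hi (mem_powerset.mp hA h)) x a]

lemma hc_av' (hw1 : ∀ i, ∑ a, w i a = 1)
    (hupd : ∀ (R : Finset ι) (i : ι), i ∉ R → Indep i (g R))
    (havg : ∀ (R : Finset ι) (i : ι), i ∉ R → ∀ x,
      ∑ a, w i a * g (insert i R) (Function.update x i a) = g R x)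
    {B : Finset ι} {i : ι} (hi : i ∈ B) (x : ∀ i, V i) :
    ∑ a, w i a * hc g B (Function.update x i a) = 0 := by
  obtain ⟨C, hC, rfl⟩ : ∃ C, i ∉ C ∧ insert i C = B :=
    ⟨B.erase i, notMem_erase i B, insert_erase hi⟩
  have e1 : ∀ a, hc g (insert i C) (Function.update x i a)
      = ∑ A ∈ C.powerset, (-1 : ℝ) ^ (C.card - A.card) *
        (g (insert i A) (Function.update x i a) - g A x) := by
    intro a
    unfold hc
    rw [sum_powerset_insert hC, ← sum_add_distrib]
    refine sum_congr rfl fun A hA => ?_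
    have hA' := mem_powerset.mp hA
    have hiA : i ∉ A := fun h => hC (hA' h)
    have hc := card_le_card hA'
    rw [card_insert_of_notMem hC, card_insert_of_notMem hiA, hupd A i hiA x a,
      show C.card + 1 - A.card = (C.card - A.card) + 1 by omega,
      show C.card + 1 - (A.card + 1) = C.card - A.card by omega, pow_succ]
    ring
  simp only [e1, mul_sum]
  rw [sum_comm]
  refine sum_eq_zero fun A hA => ?_
  have hA' := mem_powerset.mp hA
  have hiA : i ∉ A := fun h => hC (hA' h)
  have e2 : ∀ a, w i a * ((-1 : ℝ) ^ (C.card - A.card) *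
      (g (insert i A) (Function.update x i a) - g A x))
      = (-1 : ℝ) ^ (C.card - A.card) * (w i a * g (insert i A) (Function.update x i a))
        - (-1 : ℝ) ^ (C.card - A.card) * g A x * w i a := fun a => by ring
  rw [sum_congr rfl fun a _ => e2 a, sum_sub_distrib, ← mul_sum, ← mul_sum,
    havg A i hiA x, hw1]
  ring

end fam

section meas
variable [∀ i, DecidableEq (V i)] {w : ∀ i, V i → ℝ} {ρ : (∀ i, V i) → ℝ}

lemma gdw_upd (R : Finset ι) {i : ι} (hi : i ∉ R) : Indep i (gdw w ρ R) := by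
  intro x a
  unfold gdw
  rw [marg_update R hi]
  congr 1
  refine prod_congr rfl fun j hj => ?_
  have : j ≠ i := fun h => hi (h ▸ hj)
  simp [this]

lemma gdw_avg (hw : ∀ i a, 0 < w i a) (R : Finset ι) {i : ι} (hi : i ∉ R) (x : ∀ i, V i) :
    ∑ a, w i a * gdw w ρ (insert i R) (Function.update x i a) = gdw w ρ R x := by
  have h1 : ∀ a, w i a * gdw w ρ (insert i R) (Function.update x i a)
      = marg ρ (insert i R) (Function.update x i a) / ∏ j ∈ R, w j (x j) := by
    intro a
    unfold gdw
    rw [prod_insert hi]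
    have h3 : ∏ j ∈ R, w j (Function.update x i a j) = ∏ j ∈ R, w j (x j) := by
      refine prod_congr rfl fun j hj => ?_
      have : j ≠ i := fun h => hi (h ▸ hj)
      simp [this]
    rw [h3]
    simp only [Function.update_self]
    rw [mul_div_assoc', mul_div_mul_left _ _ (hw i a).ne']
  simp only [h1]
  rw [← sum_div, marg_insert_sum R hi]
  rfl

lemma rho_eq (hw : ∀ i a, 0 < w i a) (x : ∀ i, V i) : ρ x = pw w x * gdw w ρ univ x := by
  unfold gdw pw
  rw [marg_univ, mul_div_cancel₀]
  exact (prod_pos fun i _ => hw i _).ne'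

/-- sums against the measure of functions of the coordinates in `R` -/
lemma rho_sum (hw : ∀ i a, 0 < w i a) (hw1 : ∀ i, ∑ a, w i a = 1) {R : Finset ι}
    {H : (∀ i, V i) → ℝ} (hH : ∀ i, i ∉ R → Indep i H) :
    ∑ x, ρ x * H x = ∑ x, pw w x * (H x * gdw w ρ R x) := by
  have F1 := famOne (fun i a => (hw i a).le) hw1
  have key : ∀ D : Finset ι, ∑ x, pw w x * (H x * gdw w ρ (R ∪ D) x)
      = ∑ x, pw w x * (H x * gdw w ρ R x) := by
    intro D
    induction D using Finset.induction_on with
    | empty => simp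
    | insert i D _ ih =>
      by_cases h : i ∈ R ∪ D
      · have : R ∪ insert i D = R ∪ D := by
          rw [union_insert, insert_eq_of_mem h]
        rw [this, ih]
      · rw [union_insert, ← ih, pw_avg F1 i]
        refine sum_congr rfl fun x _ => ?_
        congr 1
        have e : ∀ a, w i a * (H (Function.update x i a)
            * gdw w ρ (insert i (R ∪ D)) (Function.update x i a))
            = H x * (w i a * gdw w ρ (insert i (R ∪ D)) (Function.update x i a)) := by
          intro a
          rw [hH i (fun hc => h (mem_union_left _ hc)) x a]; ring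
        rw [sum_congr rfl fun a _ => e a, ← mul_sum, gdw_avg hw _ h]
  have h1 := key univ
  rw [show R ∪ univ = univ by ext; simp] at h1
  rw [← h1]
  refine sum_congr rfl fun x _ => ?_
  have h2 := rho_eq (ρ := ρ) hw x
  calc ρ x * H x = (pw w x * gdw w ρ univ x) * H x := by rw [← h2]
    _ = _ := by ring

/-- the measure against a component of its density -/
lemma rho_hc (hw : ∀ i a, 0 < w i a) (hw1 : ∀ i, ∑ a, w i a = 1) (E : Finset ι) :
    ∑ x, ρ x * hc (gdw w ρ) E x = nh w (gdw w ρ) E := by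
  have F1 := famOne (fun i a => (hw i a).le) hw1
  have hupd : ∀ (R : Finset ι) (i : ι), i ∉ R → Indep i (gdw w ρ R) :=
    fun R i hi => gdw_upd R hi
  have havg : ∀ (R : Finset ι) (i : ι), i ∉ R → ∀ x,
      ∑ a, w i a * gdw w ρ (insert i R) (Function.update x i a) = gdw w ρ R x :=
    fun R i hi x => gdw_avg hw R hi x
  rw [rho_sum hw hw1 (R := E) (fun i hi => hc_indep' hupd hi)]
  have h1 : ∀ x, pw w x * (hc (gdw w ρ) E x * gdw w ρ E x)
      = ∑ C ∈ E.powerset, pw w x * (hc (gdw w ρ) E x * hc (gdw w ρ) C x) := by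
    intro x
    rw [← sum_hc (gdw w ρ) E x, mul_sum, mul_sum]
  rw [sum_congr rfl fun x _ => h1 x, sum_comm, sum_eq_single E]
  · unfold nh
    refine sum_congr rfl fun x _ => ?_
    ring
  · intro C hC hne
    obtain ⟨i, hiE, hiC⟩ := exists_of_ssubset (lt_of_le_of_ne (mem_powerset.mp hC) hne)
    rw [pw_avg F1 i]
    refine sum_eq_zero fun x _ => ?_
    have e1 : ∀ a, w i a * (hc (gdw w ρ) E (Function.update x i a)
        * hc (gdw w ρ) C (Function.update x i a))
        = hc (gdw w ρ) C x * (w i a * hc (gdw w ρ) E (Function.update x i a)) := by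
      intro a
      rw [hc_indep' hupd hiC x a]
      ring
    rw [sum_congr rfl fun a _ => e1 a, ← mul_sum, hc_av' hw1 hupd havg hiE, mul_zero, mul_zero]
  · intro h
    exact absurd (mem_powerset_self E) h

/-- the measure pinned at `b` on `A` (not normalised: divided by the reference weight) -/
noncomputable def pin (w : ∀ i, V i → ℝ) (ρ : (∀ i, V i) → ℝ) (A : Finset ι) (b : ∀ i, V i)
    (y : ∀ i, V i) : ℝ := if (∀ i ∈ A, y i = b i) then ρ y / ∏ i ∈ A, w i (b i) else 0

lemma pin_empty (b : ∀ i, V i) : pin w ρ ∅ b = ρ := by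
  funext y; simp [pin]

lemma pin_congr {A : Finset ι} {b c : ∀ i, V i} (h : ∀ i ∈ A, b i = c i) :
    pin w ρ A b = pin w ρ A c := by
  funext y
  unfold pin
  have h1 : (∀ i ∈ A, y i = b i) ↔ (∀ i ∈ A, y i = c i) := by
    constructor
    · intro k i hi; rw [k i hi, h i hi]
    · intro k i hi; rw [k i hi, h i hi]
  have h2 : ∏ i ∈ A, w i (b i) = ∏ i ∈ A, w i (c i) := prod_congr rfl fun i hi => by rw [h i hi]
  simp only [h1, h2]

lemma pin_nonneg (hw : ∀ i a, 0 ≤ w i a) (hρ : ∀ y, 0 ≤ ρ y) (A : Finset ι) (b y : ∀ i, V i) :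
    0 ≤ pin w ρ A b y := by
  unfold pin
  split_ifs
  · exact div_nonneg (hρ y) (prod_nonneg fun i _ => hw i _)
  · exact le_rfl

lemma pin_pin {S A : Finset ι} (hd : Disjoint S A) (b x : ∀ i, V i) :
    pin w (pin w ρ S b) A x = pin w ρ (S ∪ A) (ov A x b) := by
  funext y
  unfold pin
  have hov : ∀ i ∈ S, ov A x b i = b i := fun i hi => by
    simp [ov, disjoint_left.mp hd hi]
  have hov2 : ∀ i ∈ A, ov A x b i = x i := fun i hi => by simp [ov, hi]
  have h1 : (∀ i ∈ S ∪ A, y i = ov A x b i) ↔ ((∀ i ∈ A, y i = x i) ∧ ∀ i ∈ S, y i = b i) := by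
    constructor
    · intro h
      exact ⟨fun i hi => (h i (mem_union_right _ hi)).trans (hov2 i hi),
        fun i hi => (h i (mem_union_left _ hi)).trans (hov i hi)⟩
    · rintro ⟨h1, h2⟩ i hi
      rcases mem_union.mp hi with hi | hi
      · rw [h2 i hi, hov i hi]
      · rw [h1 i hi, hov2 i hi]
  have h2 : ∏ i ∈ S ∪ A, w i (ov A x b i) = (∏ i ∈ S, w i (b i)) * ∏ i ∈ A, w i (x i) := by
    rw [prod_union hd]
    congr 1
    · exact prod_congr rfl fun i hi => by rw [hov i hi]
    · exact prod_congr rfl fun i hi => by rw [hov2 i hi]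
  by_cases ha : ∀ i ∈ A, y i = x i
  · by_cases hs : ∀ i ∈ S, y i = b i
    · rw [if_pos ha, if_pos hs, if_pos (h1.mpr ⟨ha, hs⟩), h2, div_div]
    · rw [if_pos ha, if_neg hs, if_neg (fun h => hs (h1.mp h).2), zero_div]
  · rw [if_neg ha, if_neg (fun h => ha (h1.mp h).1)]

lemma marg_pin {A C : Finset ι} (x : ∀ i, V i) :
    marg (pin w ρ A x) C x = marg ρ (A ∪ C) x / ∏ i ∈ A, w i (x i) := by
  unfold marg pin
  rw [sum_div]
  refine sum_congr rfl fun y _ => ?_
  by_cases ha : ∀ i ∈ A, y i = x i
  · by_cases hc : ∀ i ∈ C, y i = x i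
    · rw [if_pos hc, if_pos ha, if_pos fun i hi => (mem_union.mp hi).elim (ha i) (hc i)]
    · rw [if_neg hc, if_neg fun h => hc fun i hi => h i (mem_union_right _ hi), zero_div]
  · have h3 : ¬ (∀ i ∈ A ∪ C, y i = x i) := fun h => ha fun i hi => h i (mem_union_left _ hi)
    rw [if_neg h3, if_neg ha, zero_div]
    split_ifs <;> rfl

lemma gdw_pin {A C : Finset ι} (hd : Disjoint A C) (x : ∀ i, V i) :
    gdw w (pin w ρ A x) C x = gdw w ρ (A ∪ C) x := by
  unfold gdw
  rw [marg_pin, prod_union hd, div_div]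

/-- components of the density in terms of the components of the pinned measures -/
lemma hc_union {S F : Finset ι} (hd : Disjoint S F) (z : ∀ i, V i) :
    hc (gdw w ρ) (S ∪ F) z
      = ∑ A ∈ S.powerset, (-1 : ℝ) ^ (S.card - A.card) * hc (gdw w (pin w ρ A z)) F z := by
  unfold hc
  simp only [mul_sum]
  rw [← sum_product']
  refine sum_nbij' (fun E => (E ∩ S, E ∩ F)) (fun q => q.1 ∪ q.2) ?_ ?_ ?_ ?_ ?_
  · intro E hE
    simp only [mem_product, mem_powerset]
    exact ⟨inter_subset_right, inter_subset_right⟩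
  · intro q hq
    simp only [mem_product, mem_powerset] at hq
    exact mem_powerset.mpr (union_subset_union hq.1 hq.2)
  · intro E hE
    simp only
    rw [← inter_union_distrib_left, inter_eq_left.mpr (mem_powerset.mp hE)]
  · intro q hq
    simp only [mem_product, mem_powerset] at hq
    have h1 : Disjoint q.1 F := disjoint_of_subset_left hq.1 hd
    have h2 : Disjoint q.2 S := disjoint_of_subset_left hq.2 hd.symm
    ext1
    · simp only
      rw [union_inter_distrib_right, inter_eq_left.mpr hq.1, disjoint_iff_inter_eq_empty.mp h2,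
        union_empty]
    · simp only
      rw [union_inter_distrib_right, inter_eq_left.mpr hq.2, disjoint_iff_inter_eq_empty.mp h1,
        empty_union]
  · intro E hE
    simp only
    have hd1 : Disjoint (E ∩ S) (E ∩ F) :=
      disjoint_of_subset_left inter_subset_right (disjoint_of_subset_right inter_subset_right hd)
    have hE' : E ∩ S ∪ E ∩ F = E := by
      rw [← inter_union_distrib_left, inter_eq_left.mpr (mem_powerset.mp hE)]
    rw [gdw_pin hd1, hE', card_union_of_disjoint hd]
    have h1 : E.card = (E ∩ S).card + (E ∩ F).card := by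
      rw [← card_union_of_disjoint hd1, hE']
    have h2 : (E ∩ S).card ≤ S.card := card_le_card inter_subset_right
    have h3 : (E ∩ F).card ≤ F.card := card_le_card inter_subset_right
    rw [show S.card + F.card - E.card = (S.card - (E ∩ S).card) + (F.card - (E ∩ F).card) by
      omega, pow_add]
    ring

/-- total energy of order `e` on the coordinates `U` -/
noncomputable def W (w : ∀ i, V i → ℝ) (ρ : (∀ i, V i) → ℝ) (U : Finset ι) (e : ℕ) : ℝ :=
  ∑ E ∈ U.powersetCard e, nh w (gdw w ρ) E

lemma nh_nonneg' (hw : ∀ i a, 0 ≤ w i a) (g : Finset ι → (∀ i, V i) → ℝ) (E : Finset ι) :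
    0 ≤ nh w g E :=
  sum_nonneg fun _ _ => mul_nonneg (prod_nonneg fun i _ => hw i _) (sq_nonneg _)

lemma W_nonneg (hw : ∀ i a, 0 ≤ w i a) (U : Finset ι) (e : ℕ) : 0 ≤ W w ρ U e :=
  sum_nonneg fun _ _ => nh_nonneg' hw _ _

lemma W_mono (hw : ∀ i a, 0 ≤ w i a) {U U' : Finset ι} (h : U ⊆ U') (e : ℕ) :
    W w ρ U e ≤ W w ρ U' e :=
  sum_le_sum_of_subset_of_nonneg (powersetCard_mono h) fun _ _ _ => nh_nonneg' hw _ _

/-- the energy of a pinned component -/
lemma pinned_energy (hw : ∀ i a, 0 ≤ w i a) {S F : Finset ι} (hd : Disjoint S F)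
    (x : ∀ i, V i) :
    ∑ y, pw w y * hc (gdw w ρ) (S ∪ F) (ov F y x) ^ 2
      ≤ 2 ^ S.card * ∑ A ∈ S.powerset, nh w (gdw w (pin w ρ A x)) F := by
  have h1 : ∀ y, hc (gdw w ρ) (S ∪ F) (ov F y x) ^ 2
      ≤ 2 ^ S.card * ∑ A ∈ S.powerset, hc (gdw w (pin w ρ A x)) F y ^ 2 := by
    intro y
    rw [hc_union hd]
    have h2 : ∀ A ∈ S.powerset, hc (gdw w (pin w ρ A (ov F y x))) F (ov F y x)
        = hc (gdw w (pin w ρ A x)) F y := by
      intro A hA
      have h3 : pin w ρ A (ov F y x) = pin w ρ A x := by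
        refine pin_congr fun i hi => ?_
        have : i ∉ F := disjoint_left.mp hd (mem_powerset.mp hA hi)
        simp [ov, this]
      rw [h3]
      -- locality
      unfold hc
      refine sum_congr rfl fun C hC => ?_
      congr 1
      refine loc_gdw C _ _ fun i hi => ?_
      have : i ∈ F := mem_powerset.mp hC hi
      simp [ov, this]
    have h4 := sq_sum_le_card_mul_sum_sq (s := S.powerset)
      (f := fun A => (-1 : ℝ) ^ (S.card - A.card) * hc (gdw w (pin w ρ A (ov F y x))) F (ov F y x))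
    rw [card_powerset] at h4
    push_cast at h4
    refine h4.trans (le_of_eq ?_)
    congr 1
    refine sum_congr rfl fun A hA => ?_
    rw [mul_pow, h2 A hA, ← pow_mul, mul_comm (S.card - A.card) 2, pow_mul]
    norm_num
  calc ∑ y, pw w y * hc (gdw w ρ) (S ∪ F) (ov F y x) ^ 2
      ≤ ∑ y, pw w y * (2 ^ S.card * ∑ A ∈ S.powerset, hc (gdw w (pin w ρ A x)) F y ^ 2) :=
        sum_le_sum fun y _ => mul_le_mul_of_nonneg_left (h1 y) (prod_nonneg fun i _ => hw i _)
    _ = 2 ^ S.card * ∑ A ∈ S.powerset, nh w (gdw w (pin w ρ A x)) F := by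
        unfold nh
        simp only [mul_sum]
        rw [sum_comm]
        refine sum_congr rfl fun A _ => sum_congr rfl fun y _ => ?_
        ring

end meas

end Vale.Agent.P042.H956
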