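import Vale.Agent.P042.H956.Li

/-! The level inequality for spread measures, all pins at once: the theorem. -/

namespace Vale.Agent.P042.H956

open Finset Vale.Agent.P042.H779.Ab
open Vale.Agent.P042.H779 (marg)
open Vale.Agent.P042.H482 (hc nh sum_hc)

set_option autoImplicit false
set_option linter.unusedSectionVars false

variable {ι : Type*} [Fintype ι] [DecidableEq ι] {V : ι → Type*} [∀ i, Fintype (V i)]
  {w : ∀ i, V i → ℝ}

lemma Yf_univ (EE : Finset (Finset ι)) (T : Finset ι → (∀ i, V i) → ℝ) (G : Finset ι)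
    (x : ∀ i, V i) : Yf EE T univ G x = if G ∈ EE then T G x else 0 := by
  unfold Yf
  simp only [inter_univ]
  rw [sum_filter, sum_ite_eq']

variable [∀ i, DecidableEq (V i)] {ρ : (∀ i, V i) → ℝ}

lemma qf_le (hw : ∀ i a, 0 ≤ w i a) {U S : Finset ι} {e : ℕ} {B : ℝ} (hB : 0 ≤ B)
    (hSe : S.card ≤ e) (x : ∀ i, V i) :
    qf w (U.powersetCard e) (fun E => hc (gdw w ρ) E) B univ S x
      ≤ B ^ (e - S.card) * (2 ^ S.card *
          ∑ A ∈ S.powerset, W w (pin w ρ A x) (U \ S) (e - S.card)) := by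
  unfold qf
  have hpos : ∀ F, 0 ≤ B ^ (e - S.card) * (2 ^ S.card *
      ∑ A ∈ S.powerset, nh w (gdw w (pin w ρ A x)) F) := fun F =>
    mul_nonneg (pow_nonneg hB _) (mul_nonneg (by positivity)
      (sum_nonneg fun A _ => nh_nonneg' hw _ _))
  have h1 : ∀ F ∈ ((univ : Finset ι) \ S).powerset,
      B ^ F.card * ∑ y, pw w y * (Yf (U.powersetCard e) (fun E => hc (gdw w ρ) E) univ
        (S ∪ F) (ov F y x)) ^ 2
      ≤ if F ∈ (U \ S).powersetCard (e - S.card) then B ^ (e - S.card) * (2 ^ S.card *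
          ∑ A ∈ S.powerset, nh w (gdw w (pin w ρ A x)) F) else 0 := by
    intro F hF
    have hd : Disjoint S F := disjoint_left.mpr fun i hi hiF =>
      (mem_sdiff.mp (mem_powerset.mp hF hiF)).2 hi
    simp only [Yf_univ]
    by_cases h : S ∪ F ∈ U.powersetCard e
    · obtain ⟨h2, h3⟩ := mem_powersetCard.mp h
      rw [card_union_of_disjoint hd] at h3
      have h4 : F ∈ (U \ S).powersetCard (e - S.card) := by
        refine mem_powersetCard.mpr ⟨fun i hi => mem_sdiff.mpr ⟨h2 (mem_union_right _ hi),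
          disjoint_right.mp hd hi⟩, by omega⟩
      rw [if_pos h4]
      simp only [if_pos h]
      have h5 : F.card = e - S.card := by omega
      rw [h5]
      exact mul_le_mul_of_nonneg_left (pinned_energy hw hd x) (pow_nonneg hB _)
    · simp only [if_neg h]
      have : (∑ y, pw w y * (0 : ℝ) ^ 2) = 0 := by simp
      rw [this, mul_zero]
      split_ifs
      · exact hpos F
      · exact le_rfl
  refine (sum_le_sum h1).trans ?_
  rw [sum_ite_mem]
  refine (sum_le_sum_of_subset_of_nonneg inter_subset_right fun F _ _ => hpos F).trans ?_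
  refine le_of_eq ?_
  unfold W
  rw [← mul_sum, ← mul_sum, sum_comm]

lemma qf_zero {U S : Finset ι} {e : ℕ} {B : ℝ} (h : ¬ (S ⊆ U ∧ S.card ≤ e)) (x : ∀ i, V i) :
    qf w (U.powersetCard e) (fun E => hc (gdw w ρ) E) B univ S x = 0 := by
  unfold qf
  refine sum_eq_zero fun F _ => ?_
  have h1 : S ∪ F ∉ U.powersetCard e := by
    intro hc
    obtain ⟨h2, h3⟩ := mem_powersetCard.mp hc
    exact h ⟨subset_union_left.trans h2, h3 ▸ card_le_card subset_union_left⟩
  simp only [Yf_univ, if_neg h1]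
  simp

/-- the even moments of the level-`e` part of the density -/
theorem mom_bound (hw : ∀ i a, 0 < w i a) (hw1 : ∀ i, ∑ a, w i a = 1) (U : Finset ι) (e k : ℕ)
    (hk : 1 ≤ k) (m : ℕ → ℝ) (hm0 : ∀ a, 0 ≤ m a)
    (hm : ∀ S ⊆ U, S.card ≤ e → ∀ x,
      ∑ A ∈ S.powerset, W w (pin w ρ A x) (U \ S) (e - S.card) ≤ m S.card) :
    ∑ x, pw w x * (∑ E ∈ U.powersetCard e, hc (gdw w ρ) E x) ^ (2 * k)
      ≤ ∑ a ∈ range (e + 1), (U.card.choose a : ℝ) * ((2 * (4 * (k : ℝ)) ^ (2 * k)) ^ a *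
          ((8 * (k : ℝ)) ^ (e - a) * (2 ^ a * m a)) ^ k) := by
  have hwn : ∀ i a, 0 ≤ w i a := fun i a => (hw i a).le
  have F1 := famOne hwn hw1
  have hupd : ∀ (R : Finset ι) (i : ι), i ∉ R → Indep i (gdw w ρ R) :=
    fun R i hi => gdw_upd R hi
  have havg : ∀ (R : Finset ι) (i : ι), i ∉ R → ∀ x,
      ∑ a, w i a * gdw w ρ (insert i R) (Function.update x i a) = gdw w ρ R x :=
    fun R i hi x => gdw_avg hw R hi x
  have h1 := hyp (w := w) (EE := U.powersetCard e) (T := fun E => hc (gdw w ρ) E) hwn hw1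
    (fun E _ i hi => hc_indep' hupd hi)
    (fun E _ i hi x => hc_av' hw1 hupd havg hi x) hk
  refine h1.trans ?_
  set t : ℕ → ℝ := fun a => (2 * (4 * (k : ℝ)) ^ (2 * k)) ^ a *
          ((8 * (k : ℝ)) ^ (e - a) * (2 ^ a * m a)) ^ k with ht
  have ht0 : ∀ a, 0 ≤ t a := fun a => by
    have := hm0 a
    simp only [ht]; positivity
  have h2 : ∀ S : Finset ι, (2 * (4 * (k : ℝ)) ^ (2 * k)) ^ S.card
          * ∑ x, pw w x * qf w (U.powersetCard e) (fun E => hc (gdw w ρ) E) (8 * k) univ S x ^ k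
      ≤ ∑ a ∈ range (e + 1), if S ∈ U.powersetCard a then t a else 0 := by
    intro S
    by_cases h : S ⊆ U ∧ S.card ≤ e
    · have h3 : ∑ x, pw w x * qf w (U.powersetCard e) (fun E => hc (gdw w ρ) E) (8 * k) univ S x ^ k
          ≤ ((8 * (k : ℝ)) ^ (e - S.card) * (2 ^ S.card * m S.card)) ^ k := by
        have h4 : ∀ x, pw w x * qf w (U.powersetCard e) (fun E => hc (gdw w ρ) E) (8 * k) univ S x ^ k
            ≤ pw w x * ((8 * (k : ℝ)) ^ (e - S.card) * (2 ^ S.card * m S.card)) ^ k := by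
          intro x
          refine mul_le_mul_of_nonneg_left ?_ (prod_nonneg fun i _ => hwn i _)
          refine pow_le_pow_left₀ (qf_nonneg hwn (by positivity) _ _ _) ?_ k
          refine (qf_le hwn (by positivity) h.2 x).trans ?_
          refine mul_le_mul_of_nonneg_left ?_ (by positivity)
          exact mul_le_mul_of_nonneg_left (hm S h.1 h.2 x) (by positivity)
        refine (sum_le_sum fun x _ => h4 x).trans ?_
        rw [← sum_mul, pw_sum F1, one_mul]
      have h5 : (2 * (4 * (k : ℝ)) ^ (2 * k)) ^ S.card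
          * ∑ x, pw w x * qf w (U.powersetCard e) (fun E => hc (gdw w ρ) E) (8 * k) univ S x ^ k
          ≤ t S.card := mul_le_mul_of_nonneg_left h3 (by positivity)
      refine h5.trans ?_
      have h6 := single_le_sum (f := fun a => if S ∈ U.powersetCard a then t a else 0)
        (s := range (e + 1)) (fun a _ => by
          show 0 ≤ if S ∈ U.powersetCard a then t a else 0
          split_ifs
          · exact ht0 a
          · exact le_rfl) (mem_range.mpr (Nat.lt_succ_of_le h.2))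
      have h7 : S ∈ U.powersetCard S.card := mem_powersetCard.mpr ⟨h.1, rfl⟩
      simp only [if_pos h7] at h6
      exact h6
    · simp only [qf_zero h]
      have : (0 : ℝ) ^ k = 0 := zero_pow (by omega)
      simp only [this, mul_zero, sum_const_zero]
      refine sum_nonneg fun a _ => ?_
      split_ifs
      · exact ht0 a
      · exact le_rfl
  refine (sum_le_sum fun S _ => h2 S).trans ?_
  rw [sum_comm]
  refine le_of_eq (sum_congr rfl fun a _ => ?_)
  rw [sum_ite_mem, univ_inter, sum_const, card_powersetCard, nsmul_eq_mul]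

lemma W_zero (hw1 : ∀ i, ∑ a, w i a = 1) (hw : ∀ i a, 0 ≤ w i a) (U : Finset ι) :
    W w ρ U 0 = (∑ x, ρ x) ^ 2 := by
  unfold W nh
  rw [powersetCard_zero, sum_singleton]
  have h : ∀ x, hc (gdw w ρ) ∅ x = ∑ y, ρ y := by
    intro x
    unfold hc
    simp [gdw, marg]
  simp only [h]
  rw [← sum_mul, pw_sum (famOne hw hw1), one_mul]

/-- **The level inequality, all pins at once.** -/
theorem li (hw : ∀ i a, 0 < w i a) (hw1 : ∀ i, ∑ a, w i a = 1) (hρ : ∀ x, 0 ≤ ρ x)
    (U0 : Finset ι) (n : ℕ) (hn : U0.card ≤ n) (A0 M D K : ℝ) (hA : 1 ≤ A0) (hM : 1 ≤ M)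
    (hK : 0 < K) (s1 : ℕ) (k : ℕ → ℕ) (hk : ∀ e, 1 ≤ e → e ≤ s1 → 1 ≤ k e)
    (hmass : ∀ S ⊆ U0, S.card ≤ s1 → ∀ b, ∑ x, pin w ρ S b x ≤ A0 * M ^ S.card)
    (hDC : ∀ S ⊆ U0, ∀ b, ∀ e, 1 ≤ e → S.card + e ≤ s1 →
      ∑ x, pin w ρ S b x *
          (∑ E ∈ (U0 \ S).powersetCard e, hc (gdw w (pin w ρ S b)) E x) ^ (2 * k e)
        ≤ Real.exp D * ∑ x, pw w x *
          (∑ E ∈ (U0 \ S).powersetCard e, hc (gdw w (pin w ρ S b)) E x) ^ (2 * k e))
    (hN1 : ∀ e : ℕ, 1 ≤ e → e ≤ s1 → 4 * Real.exp D * (8 * k e * e / K) ^ (e * k e) ≤ 1)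
    (hN2 : ∀ e : ℕ, 1 ≤ e → e ≤ s1 →
      4 * n * (8 * k e * e / K * (Real.exp 1 * M ^ 2)) ^ (k e) ≤ 1) :
    ∀ e : ℕ, ∀ S ⊆ U0, S.card + e ≤ s1 → ∀ b,
      W w (pin w ρ S b) (U0 \ S) e ≤ (A0 * M ^ S.card) ^ 2 * (K / e) ^ e := by
  have hwn : ∀ i a, 0 ≤ w i a := fun i a => (hw i a).le
  intro e
  induction e using Nat.strong_induction_on with
  | _ e ih =>
  intro S hS hSe b
  rcases Nat.eq_zero_or_pos e with h0 | he
  · subst h0
    rw [W_zero hw1 hwn]
    simp only [pow_zero, mul_one]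
    exact pow_le_pow_left₀ (sum_nonneg fun x _ => pin_nonneg hwn hρ S b x)
      (hmass S hS (by omega) b) 2
  · have he1 : 1 ≤ e := he
    have hes : e ≤ s1 := by omega
    set ρ' := pin w ρ S b with hρ'
    set U := U0 \ S with hU
    set A := A0 * M ^ S.card with hAdef
    set kk := k e with hkk
    have hkk1 : 1 ≤ kk := hk e he1 hes
    have hA1 : 1 ≤ A := one_le_mul_of_one_le_of_one_le hA (one_le_pow₀ hM)
    have hA0' : 0 < A := by linarith
    have he' : (0 : ℝ) < e := by exact_mod_cast he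
    have hρ'n : ∀ x, 0 ≤ ρ' x := fun x => pin_nonneg hwn hρ S b x
    set X : (∀ i, V i) → ℝ := fun x => ∑ E ∈ U.powersetCard e, hc (gdw w ρ') E x with hX
    set WW := W w ρ' U e with hWW
    have hWn : 0 ≤ WW := W_nonneg hwn _ _
    by_contra hcon
    push Not at hcon
    set W0 : ℝ := A ^ 2 * (K / e) ^ e with hW0
    have hW0p : 0 < W0 := by positivity
    -- the pairing
    have s1' : ∑ x, ρ' x * X x = WW := by
      simp only [hX, hWW, W, mul_sum]
      rw [sum_comm]
      exact sum_congr rfl fun E _ => rho_hc hw hw1 E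
    have s2 := jensen_pow ρ' X hρ'n hkk1
    rw [s1'] at s2
    have s3 := hDC S hS b e he1 hSe
    -- the moment bound
    set m : ℕ → ℝ := fun a => if a = 0 then WW else
      2 ^ a * ((A * M ^ a) ^ 2 * (K / ((e - a : ℕ) : ℝ)) ^ (e - a)) with hmdef
    have hm0 : ∀ a, 0 ≤ m a := by
      intro a
      simp only [hmdef]
      split_ifs
      · exact hWn
      · positivity
    have hm : ∀ S' ⊆ U, S'.card ≤ e → ∀ x,
        ∑ A' ∈ S'.powerset, W w (pin w ρ' A' x) (U \ S') (e - S'.card) ≤ m S'.card := by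
      intro S' hS' hS'e x
      simp only [hmdef]
      split_ifs with h
      · have : S' = ∅ := card_eq_zero.mp h
        subst this
        simp [pin_empty, hWW]
      · have hterm : ∀ A' ∈ S'.powerset, W w (pin w ρ' A' x) (U \ S') (e - S'.card)
            ≤ (A * M ^ S'.card) ^ 2 * (K / ((e - S'.card : ℕ) : ℝ)) ^ (e - S'.card) := by
          intro A' hA'
          have hA'S := mem_powerset.mp hA'
          have hd : Disjoint S A' := disjoint_right.mpr fun i hi =>
            (mem_sdiff.mp (hS' (hA'S hi))).2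
          have e1 : pin w ρ' A' x = pin w ρ (S ∪ A') (ov A' x b) := pin_pin hd b x
          have hsub : S ∪ A' ⊆ U0 := union_subset hS ((hA'S.trans hS').trans sdiff_subset)
          have hcard : (S ∪ A').card = S.card + A'.card := card_union_of_disjoint hd
          have hA'c : A'.card ≤ S'.card := card_le_card hA'S
          have hmono : W w (pin w ρ' A' x) (U \ S') (e - S'.card)
              ≤ W w (pin w ρ' A' x) (U0 \ (S ∪ A')) (e - S'.card) := by
            refine W_mono hwn ?_ _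
            intro i hi
            rw [hU, mem_sdiff, mem_sdiff] at hi
            rw [mem_sdiff, mem_union, not_or]
            exact ⟨hi.1.1, hi.1.2, fun hc => hi.2 (hA'S hc)⟩
          refine hmono.trans ?_
          rw [e1]
          have hpos : 0 < S'.card := Nat.pos_of_ne_zero h
          have := ih (e - S'.card) (by omega) (S ∪ A') hsub (by omega) (ov A' x b)
          refine this.trans ?_
          refine mul_le_mul_of_nonneg_right ?_ (by positivity)
          refine pow_le_pow_left₀ (by positivity) ?_ 2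
          rw [hcard, pow_add, ← mul_assoc]
          exact mul_le_mul_of_nonneg_left (pow_le_pow_right₀ hM hA'c) (by positivity)
        refine (sum_le_sum hterm).trans ?_
        rw [sum_const, card_powerset, nsmul_eq_mul]
        push_cast
        exact le_rfl
    have s4 := mom_bound (ρ := ρ') hw hw1 U e kk hkk1 m hm0 hm
    -- combine
    have hmassS : ∑ x, ρ' x ≤ A := hmass S hS (by omega) b
    have hmass0 : 0 ≤ ∑ x, ρ' x := sum_nonneg fun x _ => hρ'n x
    set Mo := ∑ a ∈ range (e + 1), (U.card.choose a : ℝ) * ((2 * (4 * (kk : ℝ)) ^ (2 * kk)) ^ a *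
          ((8 * (kk : ℝ)) ^ (e - a) * (2 ^ a * m a)) ^ kk) with hMo
    have hMo0 : 0 ≤ Mo := sum_nonneg fun a _ => by have := hm0 a; positivity
    have s5 : WW ^ (2 * kk) ≤ A ^ (2 * kk) * (Real.exp D * Mo) := by
      calc WW ^ (2 * kk) ≤ (∑ x, ρ' x) ^ (2 * kk - 1) * ∑ x, ρ' x * X x ^ (2 * kk) := s2
        _ ≤ A ^ (2 * kk) * (Real.exp D * Mo) := by
            refine mul_le_mul ?_ ?_ ?_ (by positivity)
            · calc (∑ x, ρ' x) ^ (2 * kk - 1) ≤ A ^ (2 * kk - 1) := pow_le_pow_left₀ hmass0 hmassS _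
                _ ≤ A ^ (2 * kk) := pow_le_pow_right₀ hA1 (by omega)
            · exact s3.trans (mul_le_mul_of_nonneg_left s4 (Real.exp_pos D).le)
            · exact sum_nonneg fun x _ => mul_nonneg (hρ'n x) (by rw [pow_mul]; positivity)
    -- the terms
    have hUn : U.card ≤ n := (card_le_card sdiff_subset).trans hn
    have t0 : Real.exp D * ((U.card.choose 0 : ℝ) * ((2 * (4 * (kk : ℝ)) ^ (2 * kk)) ^ 0 *
          ((8 * (kk : ℝ)) ^ (e - 0) * (2 ^ 0 * m 0)) ^ kk))
        ≤ 1 / 4 * (((K / e) ^ e) ^ kk * WW ^ kk) := by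
      simp only [Nat.choose_zero_right, Nat.cast_one, pow_zero, one_mul, Nat.sub_zero, hmdef,
        if_true]
      rw [mul_pow, ← mul_assoc, ← mul_assoc]
      refine mul_le_mul_of_nonneg_right ?_ (pow_nonneg hWn _)
      have hN := hN1 e he1 hes
      have e1 : (8 * (kk : ℝ)) = (8 * kk * e / K) * (K / e) := by field_simp
      have e2 : ((8 * (kk : ℝ)) ^ e) ^ kk = (8 * kk * e / K) ^ (e * kk) * ((K / e) ^ e) ^ kk := by
        conv_lhs => rw [e1]
        rw [mul_pow, mul_pow, ← pow_mul (8 * (kk : ℝ) * e / K)]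
      rw [e2, ← mul_assoc]
      refine mul_le_mul_of_nonneg_right ?_ (by positivity)
      linarith
    have ta : ∀ a, a ≤ e → Real.exp D * ((U.card.choose (a + 1) : ℝ) *
          ((2 * (4 * (kk : ℝ)) ^ (2 * kk)) ^ (a + 1) *
          ((8 * (kk : ℝ)) ^ (e - (a + 1)) * (2 ^ (a + 1) * m (a + 1))) ^ kk))
        ≤ 1 / 4 * (1 / 2) ^ (a + 1) * (A ^ 2 * ((K / e) ^ e) ^ 2) ^ kk ∨ a = e := by
      intro a hae
      rcases Nat.lt_or_ge a e with h | h
      · left
        have hns := num_step e (a + 1) kk n (by omega) he1 hkk1 M K A D hM hK hA0'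
          (hN1 e he1 hes) (hN2 e he1 hes)
        refine le_trans ?_ hns
        refine mul_le_mul_of_nonneg_left ?_ (Real.exp_pos D).le
        have hm1 : m (a + 1) = 2 ^ (a + 1) * ((A * M ^ (a + 1)) ^ 2 *
            (K / ((e - (a + 1) : ℕ) : ℝ)) ^ (e - (a + 1))) := by
          simp only [hmdef, Nat.add_eq_zero_iff, one_ne_zero, and_false, if_false]
        rw [hm1]
        refine mul_le_mul_of_nonneg_right ?_ (by positivity)
        calc (U.card.choose (a + 1) : ℝ) ≤ ((U.card ^ (a + 1) : ℕ) : ℝ) := by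
              exact_mod_cast Nat.choose_le_pow _ _
          _ ≤ (n : ℝ) ^ (a + 1) := by
              push_cast
              exact pow_le_pow_left₀ (by positivity) (by exact_mod_cast hUn) _
      · right; omega
    have s6 : Real.exp D * Mo ≤ 1 / 4 * (((K / e) ^ e) ^ kk * WW ^ kk)
        + 1 / 4 * (A ^ 2 * ((K / e) ^ e) ^ 2) ^ kk := by
      rw [hMo, mul_sum, sum_range_succ']
      rw [add_comm]
      refine add_le_add t0 ?_
      have h1 : ∀ a ∈ range e, Real.exp D * ((U.card.choose (a + 1) : ℝ) *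
          ((2 * (4 * (kk : ℝ)) ^ (2 * kk)) ^ (a + 1) *
          ((8 * (kk : ℝ)) ^ (e - (a + 1)) * (2 ^ (a + 1) * m (a + 1))) ^ kk))
          ≤ 1 / 4 * (1 / 2) ^ (a + 1) * (A ^ 2 * ((K / e) ^ e) ^ 2) ^ kk := by
        intro a ha
        have ha' := mem_range.mp ha
        rcases ta a (by omega) with h | h
        · exact h
        · omega
      refine (sum_le_sum h1).trans ?_
      have h2 : ∑ a ∈ range e, 1 / 4 * (1 / 2 : ℝ) ^ (a + 1) * (A ^ 2 * ((K / e) ^ e) ^ 2) ^ kk
          = (∑ a ∈ range e, (1 / 2 : ℝ) ^ (a + 1)) * (1 / 4 * (A ^ 2 * ((K / e) ^ e) ^ 2) ^ kk) := by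
        rw [sum_mul]
        exact sum_congr rfl fun a _ => by ring
      rw [h2]
      have h3 : ∑ a ∈ range e, (1 / 2 : ℝ) ^ (a + 1) ≤ 1 := by
        have : ∀ e : ℕ, ∑ a ∈ range e, (1 / 2 : ℝ) ^ (a + 1) = 1 - (1 / 2) ^ e := by
          intro e
          induction e with
          | zero => simp
          | succ e ih2 => rw [sum_range_succ, ih2, pow_succ]; ring
        rw [this]
        have : (0 : ℝ) ≤ (1 / 2) ^ e := by positivity
        linarith
      calc (∑ a ∈ range e, (1 / 2 : ℝ) ^ (a + 1)) * (1 / 4 * (A ^ 2 * ((K / e) ^ e) ^ 2) ^ kk)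
          ≤ 1 * (1 / 4 * (A ^ 2 * ((K / e) ^ e) ^ 2) ^ kk) :=
            mul_le_mul_of_nonneg_right h3 (by positivity)
        _ = _ := one_mul _
    -- contradiction
    have s7 : WW ^ (2 * kk) ≤ 1 / 4 * (W0 ^ kk * WW ^ kk) + 1 / 4 * W0 ^ (2 * kk) := by
      refine s5.trans ?_
      refine (mul_le_mul_of_nonneg_left s6 (by positivity)).trans (le_of_eq ?_)
      rw [hW0, mul_pow, mul_pow, mul_pow, pow_mul, pow_mul, pow_mul]
      ring
    have s8 : W0 ^ kk < WW ^ kk := pow_lt_pow_left₀ hcon hW0p.le (by omega)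
    have s9 : 0 < W0 ^ kk := pow_pos hW0p _
    rw [two_mul, pow_add, pow_add] at s7
    nlinarith

end Vale.Agent.P042.H956
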