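import Vale.Agent.P042.H956.LiMain
import Vale.Agent.P042.H685.Pin

/-! The level inequality with the numbers inside; the same in the language of pinned families. -/

namespace Vale.Agent.P042.H956

open Finset Vale.Agent.P042.H779.Ab
open Vale.Agent.P042.H779 (marg)
open Vale.Agent.P042.H482 (hc nh sum_hc)
open Vale.Agent.P042.H685 (gp gr hh WW nr PFam pfam_meas hh_gp_eq_zero hh_gr)

set_option autoImplicit false
set_option linter.unusedSectionVars false

variable {ι : Type*} [Fintype ι] [DecidableEq ι] {V : ι → Type*} [∀ i, Fintype (V i)]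
  [∀ i, DecidableEq (V i)] {w : ∀ i, V i → ℝ} {ρ : (∀ i, V i) → ℝ}

/-- the constant of the level inequality: `d` = accessible degree, `D` = log of the density cap -/
noncomputable def KL (d : ℕ) (D M : ℝ) : ℝ := 2 * d * Real.exp (8 * (D + 2) / d + 2) * M ^ 2

/-- **The level inequality with the numbers inside.** -/
theorem li_num (hw : ∀ i a, 0 < w i a) (hw1 : ∀ i, ∑ a, w i a = 1) (hρ : ∀ x, 0 ≤ ρ x)
    (U0 : Finset ι) (A0 M D : ℝ) (hA : 1 ≤ A0) (hM : 1 ≤ M) (hD : 0 ≤ D) (s1 d l : ℕ)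
    (hl : 1 ≤ l) (hln : Real.log (4 * U0.card) ≤ l) (hd : 4 * s1 * l ≤ d)
    (hmass : ∀ S ⊆ U0, S.card ≤ s1 → ∀ b, ∑ x, pin w ρ S b x ≤ A0 * M ^ S.card)
    (hDC : ∀ S ⊆ U0, S.card ≤ s1 → ∀ b, ∀ e k, 1 ≤ e → e ≤ s1 → 1 ≤ k → 4 * (k * e) ≤ d →
      ∑ x, pin w ρ S b x *
          (∑ E ∈ (U0 \ S).powersetCard e, hc (gdw w (pin w ρ S b)) E x) ^ (2 * k)
        ≤ Real.exp D * ∑ x, pw w x *
          (∑ E ∈ (U0 \ S).powersetCard e, hc (gdw w (pin w ρ S b)) E x) ^ (2 * k)) :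
    ∀ e : ℕ, ∀ S ⊆ U0, S.card + e ≤ s1 → ∀ b,
      W w (pin w ρ S b) (U0 \ S) e ≤ (A0 * M ^ S.card) ^ 2 * (KL d D M / e) ^ e := by
  rcases Nat.eq_zero_or_pos s1 with hs0 | hs1
  · -- only `e = 0`
    intro e S hS hSe b
    have he : e = 0 := by omega
    subst he
    rw [W_zero hw1 (fun i a => (hw i a).le)]
    simp only [pow_zero, mul_one]
    exact pow_le_pow_left₀ (sum_nonneg fun x _ => pin_nonneg (fun i a => (hw i a).le) hρ S b x)
      (hmass S hS (by omega) b) 2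
  have hd0 : 0 < d := by
    have : 0 < 4 * s1 * l := by positivity
    omega
  have hdR : (0 : ℝ) < d := by exact_mod_cast hd0
  have hK : 0 < KL d D M := by
    unfold KL; positivity
  -- the choice of the exponents
  have hkl : ∀ e : ℕ, 1 ≤ e → e ≤ s1 → l ≤ d / (4 * e) := by
    intro e he hes
    rw [Nat.le_div_iff_mul_le (by omega)]
    calc l * (4 * e) ≤ l * (4 * s1) := Nat.mul_le_mul_left _ (by omega)
      _ = 4 * s1 * l := by ring
      _ ≤ d := hd
  have hup : ∀ e : ℕ, 1 ≤ e → 4 * (d / (4 * e) * e) ≤ d := by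
    intro e he
    have := Nat.div_mul_le_self d (4 * e)
    calc 4 * (d / (4 * e) * e) = d / (4 * e) * (4 * e) := by ring
      _ ≤ d := this
  have hlow : ∀ e : ℕ, 1 ≤ e → e ≤ s1 → (d : ℝ) ≤ 8 * (e * (d / (4 * e) : ℕ)) := by
    intro e he hes
    have h1 : d < (d / (4 * e) + 1) * (4 * e) := by
      have := Nat.lt_div_mul_add (a := d) (b := 4 * e) (by omega)
      linarith [this, Nat.div_mul_le_self d (4 * e)]
    have h2 : 1 ≤ d / (4 * e) := hl.trans (hkl e he hes)
    have h3 : d ≤ 8 * (e * (d / (4 * e))) := by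
      set q := d / (4 * e)
      have : (q + 1) * (4 * e) ≤ (2 * q) * (4 * e) := Nat.mul_le_mul_right _ (by omega)
      calc d ≤ (q + 1) * (4 * e) := h1.le
        _ ≤ (2 * q) * (4 * e) := this
        _ = 8 * (e * q) := by ring
    exact_mod_cast h3
  have hθ : ∀ e : ℕ, 1 ≤ e →
      8 * ((d / (4 * e) : ℕ) : ℝ) * e / KL d D M ≤ Real.exp (-(8 * (D + 2) / d + 2)) / M ^ 2 := by
    intro e he
    have h1 : (4 : ℝ) * (((d / (4 * e) : ℕ) : ℝ) * e) ≤ d := by exact_mod_cast hup e he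
    rw [div_le_div_iff₀ hK (by positivity)]
    unfold KL
    rw [Real.exp_neg]
    have hE := Real.exp_pos (8 * (D + 2) / d + 2)
    have e1 : (Real.exp (8 * (D + 2) / d + 2))⁻¹ *
        (2 * d * Real.exp (8 * (D + 2) / d + 2) * M ^ 2) = 2 * d * M ^ 2 := by
      field_simp
    rw [e1]
    have : (0 : ℝ) ≤ M ^ 2 := by positivity
    nlinarith
  refine li hw hw1 hρ U0 U0.card le_rfl A0 M D (KL d D M) hA hM hK s1 (fun e => d / (4 * e))
    (fun e he hes => hl.trans (hkl e he hes)) hmass ?_ ?_ ?_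
  · intro S hS b e he hSe
    exact hDC S hS (by omega) b e _ he (by omega) (hl.trans (hkl e he (by omega))) (hup e he)
  · -- N1
    intro e he hes
    set k := d / (4 * e) with hk
    have h0 : 0 ≤ 8 * (k : ℝ) * e / KL d D M := by positivity
    have h1 : 8 * (k : ℝ) * e / KL d D M ≤ Real.exp (-(8 * (D + 2) / d)) := by
      refine (hθ e he).trans ?_
      rw [div_le_iff₀ (by positivity)]
      have h2 : Real.exp (-(8 * (D + 2) / d + 2)) ≤ Real.exp (-(8 * (D + 2) / d)) :=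
        Real.exp_le_exp.mpr (by linarith)
      have h3 : (1 : ℝ) ≤ M ^ 2 := one_le_pow₀ hM
      nlinarith [Real.exp_pos (-(8 * (D + 2) / (d : ℝ)))]
    have h4 : (8 * (k : ℝ) * e / KL d D M) ^ (e * k) ≤ Real.exp (-(D + 2)) := by
      refine (pow_le_pow_left₀ h0 h1 _).trans ?_
      rw [← Real.exp_nat_mul]
      refine Real.exp_le_exp.mpr ?_
      have h5 := hlow e he hes
      have h6 : (((e * k : ℕ) : ℝ)) * (-(8 * (D + 2) / d)) = -((D + 2) * (8 * (e * k) / d)) := by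
        push_cast; ring
      rw [h6]
      have h7 : (1 : ℝ) ≤ 8 * (e * k) / d := by
        rw [le_div_iff₀ hdR, one_mul]; exact h5
      nlinarith
    calc 4 * Real.exp D * (8 * (k : ℝ) * e / KL d D M) ^ (e * k)
        ≤ 4 * Real.exp D * Real.exp (-(D + 2)) := mul_le_mul_of_nonneg_left h4 (by positivity)
      _ = 4 * Real.exp (-2) := by rw [mul_assoc, ← Real.exp_add]; congr 2; ring
      _ ≤ 1 := by
          have h8 : (4 : ℝ) ≤ Real.exp 2 := by
            have h9 : (2 : ℝ) ≤ Real.exp 1 := by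
              have := Real.add_one_le_exp (1 : ℝ); linarith
            have : Real.exp 2 = Real.exp 1 * Real.exp 1 := by rw [← Real.exp_add]; norm_num
            rw [this]; nlinarith
          rw [Real.exp_neg]
          rw [mul_inv_le_iff₀ (Real.exp_pos 2)]
          linarith
  · -- N2
    intro e he hes
    set k := d / (4 * e) with hk
    have hlk : l ≤ k := hkl e he hes
    have hM2 : (0 : ℝ) < M ^ 2 := by positivity
    have h0 : 0 ≤ 8 * (k : ℝ) * e / KL d D M * (Real.exp 1 * M ^ 2) := by positivity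
    have h1 : 8 * (k : ℝ) * e / KL d D M * (Real.exp 1 * M ^ 2) ≤ Real.exp (-1) := by
      calc 8 * (k : ℝ) * e / KL d D M * (Real.exp 1 * M ^ 2)
          ≤ Real.exp (-(8 * (D + 2) / d + 2)) / M ^ 2 * (Real.exp 1 * M ^ 2) :=
            mul_le_mul_of_nonneg_right (hθ e he) (by positivity)
        _ = Real.exp (-(8 * (D + 2) / d + 2) + 1) := by
            rw [Real.exp_add]; field_simp
        _ ≤ Real.exp (-1) := by
            refine Real.exp_le_exp.mpr ?_
            have : (0 : ℝ) ≤ 8 * (D + 2) / d := by positivity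
            linarith
    have h2 : (8 * (k : ℝ) * e / KL d D M * (Real.exp 1 * M ^ 2)) ^ k ≤ Real.exp (-k) := by
      refine (pow_le_pow_left₀ h0 h1 k).trans (le_of_eq ?_)
      rw [← Real.exp_nat_mul]; congr 1; ring
    rcases Nat.eq_zero_or_pos U0.card with hc | hc
    · rw [hc]; simp
    · have hc' : (0 : ℝ) < 4 * U0.card := by
        have : (0 : ℝ) < U0.card := by exact_mod_cast hc
        linarith
      have h3 : (4 * (U0.card : ℝ)) ≤ Real.exp k := by
        rw [← Real.log_le_iff_le_exp hc']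
        have : (l : ℝ) ≤ k := by exact_mod_cast hlk
        linarith
      calc 4 * (U0.card : ℝ) * (8 * (k : ℝ) * e / KL d D M * (Real.exp 1 * M ^ 2)) ^ k
          ≤ Real.exp k * Real.exp (-k) :=
            mul_le_mul h3 h2 (by positivity) (Real.exp_pos _).le
        _ = 1 := by rw [← Real.exp_add]; simp

/-- `(K/e)^e ≤ K^e/e!` -/
lemma div_pow_le_fact (K : ℝ) (hK : 0 ≤ K) (e : ℕ) : (K / e) ^ e ≤ K ^ e / (e.factorial : ℝ) := by
  rcases Nat.eq_zero_or_pos e with h | h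
  · subst h; simp
  · rw [div_pow]
    have h1 : (e.factorial : ℝ) ≤ (e : ℝ) ^ e := by exact_mod_cast Nat.factorial_le_pow e
    have h2 : (0 : ℝ) < e.factorial := by exact_mod_cast Nat.factorial_pos e
    exact div_le_div_of_nonneg_left (pow_nonneg hK e) h2 h1

/-! ### The same for pinned families (helper685) -/

/-- densities of a pinned measure, everywhere -/
lemma gdw_pin_ov {S C : Finset ι} (hd : Disjoint S C) (u x : ∀ i, V i) :
    gdw w (pin w ρ S u) C x = gdw w ρ (S ∪ C) (H685.ov S u x) := by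
  have h1 : pin w ρ S u = pin w ρ S (H685.ov S u x) :=
    pin_congr fun i hi => (H685.ov_mem hi u x).symm
  have h2 : gdw w (pin w ρ S u) C x = gdw w (pin w ρ S u) C (H685.ov S u x) := by
    refine loc_gdw C _ _ fun i hi => ?_
    rw [H685.ov_notMem (fun h => disjoint_left.mp hd h hi)]
  rw [h2, h1, gdw_pin hd]

/-- components of the pinned, restricted family -/
lemma hh_bridge {U0 S E : Finset ι} (hE : E ⊆ U0 \ S) (v x : ∀ i, V i) :
    hh (gp (gr (gdw w ρ) U0) S v) E x = hc (gdw w (pin w ρ (S ∩ U0) v)) E x := by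
  unfold hh hc gp gr
  refine sum_congr rfl fun C hC => ?_
  congr 1
  have hCE := mem_powerset.mp hC
  have hCU : C ⊆ U0 := (hCE.trans hE).trans sdiff_subset
  have hCS : Disjoint (S ∩ U0) C := disjoint_left.mpr fun i hi hiC =>
    (mem_sdiff.mp (hE (hCE hiC))).2 (mem_inter.mp hi).1
  rw [gdw_pin_ov hCS, union_inter_distrib_right, inter_eq_left.mpr hCU]
  refine loc_gdw _ _ _ fun i hi => ?_
  rcases mem_union.mp hi with h | h
  · rw [H685.ov_mem h, H685.ov_mem (mem_inter.mp h).1]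
  · have h1 : i ∉ S := (mem_sdiff.mp (hE (hCE h))).2
    rw [H685.ov_notMem h1, H685.ov_notMem (fun hc => h1 (mem_inter.mp hc).1)]

lemma hh_bridge_zero {U0 S E : Finset ι} (hE : ¬ E ⊆ U0 \ S) (v x : ∀ i, V i) :
    hh (gp (gr (gdw w ρ) U0) S v) E x = 0 := by
  by_cases hS : Disjoint S E
  · obtain ⟨i, hiE, hi⟩ := not_subset.mp hE
    have hiU : i ∉ U0 := fun h => hi (mem_sdiff.mpr ⟨h, fun hc => disjoint_left.mp hS hc hiE⟩)
    have h1 : gp (gr (gdw w ρ) U0) S v = gr (gp (gr (gdw w ρ) U0) S v) U0 := by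
      funext C x
      have h2 : (S ∪ C) ∩ U0 = (S ∪ (C ∩ U0)) ∩ U0 := by
        ext j; simp only [mem_inter, mem_union]; tauto
      show gdw w ρ ((S ∪ C) ∩ U0) _ = gdw w ρ ((S ∪ (C ∩ U0)) ∩ U0) _
      rw [h2]
    rw [h1, hh_gr, if_neg fun h => hiU (h hiE)]
  · exact hh_gp_eq_zero _ _ _ hS x

/-- energies of the pinned, restricted family -/
theorem WW_bridge (U0 S : Finset ι) (v : ∀ i, V i) (e : ℕ) :
    WW w (gp (gr (gdw w ρ) U0) S v) e = W w (pin w ρ (S ∩ U0) v) (U0 \ S) e := by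
  unfold WW W nr nh
  symm
  refine sum_subset_zero_on_sdiff ?_ ?_ ?_
  · intro E hE
    exact mem_filter.mpr ⟨mem_univ _, (mem_powersetCard.mp hE).2⟩
  · intro E hE
    rw [mem_sdiff, mem_filter, mem_powersetCard] at hE
    have hE' : ¬ E ⊆ U0 \ S := fun h => hE.2 ⟨h, hE.1.2⟩
    refine sum_eq_zero fun x _ => ?_
    rw [hh_bridge_zero hE']
    simp
  · intro E hE
    refine sum_congr rfl fun x _ => ?_
    rw [hh_bridge (mem_powersetCard.mp hE).1]

/-- **(LI) and (PH) for the restricted density family, every pin set.** -/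
theorem li_gp (hw : ∀ i a, 0 < w i a) (hw1 : ∀ i, ∑ a, w i a = 1) (hρ : ∀ x, 0 ≤ ρ x)
    (U0 : Finset ι) (A0 M D : ℝ) (hA : 1 ≤ A0) (hM : 1 ≤ M) (hD : 0 ≤ D) (s1 d l : ℕ)
    (hl : 1 ≤ l) (hln : Real.log (4 * U0.card) ≤ l) (hd : 4 * s1 * l ≤ d)
    (hmass : ∀ S ⊆ U0, S.card ≤ s1 → ∀ b, ∑ x, pin w ρ S b x ≤ A0 * M ^ S.card)
    (hDC : ∀ S ⊆ U0, S.card ≤ s1 → ∀ b, ∀ e k, 1 ≤ e → e ≤ s1 → 1 ≤ k → 4 * (k * e) ≤ d →
      ∑ x, pin w ρ S b x *
          (∑ E ∈ (U0 \ S).powersetCard e, hc (gdw w (pin w ρ S b)) E x) ^ (2 * k)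
        ≤ Real.exp D * ∑ x, pw w x *
          (∑ E ∈ (U0 \ S).powersetCard e, hc (gdw w (pin w ρ S b)) E x) ^ (2 * k))
    (S : Finset ι) (v : ∀ i, V i) (e : ℕ) (hSe : S.card + e ≤ s1) :
    WW w (gp (gr (gdw w ρ) U0) S v) e ≤ (A0 * M ^ S.card) ^ 2 * (KL d D M / e) ^ e := by
  rw [WW_bridge]
  have hc : (S ∩ U0).card ≤ S.card := card_le_card inter_subset_left
  have h1 := li_num hw hw1 hρ U0 A0 M D hA hM hD s1 d l hl hln hd hmass hDC e (S ∩ U0)
    inter_subset_right (by omega) v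
  have h2 : U0 \ (S ∩ U0) = U0 \ S := by
    ext i; simp only [mem_sdiff, mem_inter]; tauto
  rw [h2] at h1
  refine h1.trans ?_
  refine mul_le_mul_of_nonneg_right ?_ ?_
  · refine pow_le_pow_left₀ (by positivity) ?_ 2
    exact mul_le_mul_of_nonneg_left (pow_le_pow_right₀ hM hc) (by linarith)
  · have : 0 ≤ KL d D M := by unfold KL; positivity
    positivity

end Vale.Agent.P042.H956
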