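import Vale.Agent.P042.H956.Ms

/-! The level inequality for spread measures, all pins at once. -/

namespace Vale.Agent.P042.H956

open Finset Vale.Agent.P042.H779.Ab
open Vale.Agent.P042.H779 (marg)
open Vale.Agent.P042.H482 (hc nh sum_hc)

set_option autoImplicit false
set_option linter.unusedSectionVars false

section jensen

lemma jensen_pow {Ω : Type*} [Fintype Ω] (ρ X : Ω → ℝ) (hρ : ∀ x, 0 ≤ ρ x) {k : ℕ} (hk : 1 ≤ k) :
    (∑ x, ρ x * X x) ^ (2 * k) ≤ (∑ x, ρ x) ^ (2 * k - 1) * ∑ x, ρ x * X x ^ (2 * k) := by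
  set m := ∑ x, ρ x with hm
  have hm0 : 0 ≤ m := sum_nonneg fun x _ => hρ x
  rcases hm0.eq_or_lt with h0 | h0
  · have hz : ∀ x, ρ x = 0 := fun x =>
      (sum_eq_zero_iff_of_nonneg fun x _ => hρ x).mp (hm.symm.trans h0.symm) x (mem_univ x)
    simp only [hz, zero_mul, sum_const_zero, mul_zero]
    rw [zero_pow (by omega)]
  · have h1 := Real.pow_arith_mean_le_arith_mean_pow_of_even univ (fun x => ρ x / m) X
      (fun x _ => div_nonneg (hρ x) hm0) (by rw [← sum_div, ← hm, div_self h0.ne'])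
      (n := 2 * k) (even_two_mul k)
    have e1 : ∑ x, ρ x / m * X x = (∑ x, ρ x * X x) / m := by
      rw [sum_div]; exact sum_congr rfl fun x _ => by ring
    have e2 : ∑ x, ρ x / m * X x ^ (2 * k) = (∑ x, ρ x * X x ^ (2 * k)) / m := by
      rw [sum_div]; exact sum_congr rfl fun x _ => by ring
    rw [e1, e2, div_pow, div_le_div_iff₀ (pow_pos h0 _) h0] at h1
    have e3 : m ^ (2 * k) = m ^ (2 * k - 1) * m := by
      rw [← pow_succ]; congr 1; omega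
    rw [e3] at h1
    have h2 : (∑ x, ρ x * X x) ^ (2 * k) * m
        ≤ (m ^ (2 * k - 1) * ∑ x, ρ x * X x ^ (2 * k)) * m := by linarith
    exact le_of_mul_le_mul_right h2 h0

end jensen

section num

/-- `(K/(e-a))^(e-a) ≤ (K/e)^(e-a) exp a` -/
lemma pow_ratio (e a : ℕ) (hae : a ≤ e) (he : 1 ≤ e) (K : ℝ) (hK : 0 < K) :
    (K / ((e - a : ℕ) : ℝ)) ^ (e - a) ≤ (K / e) ^ (e - a) * Real.exp a := by
  rcases Nat.eq_zero_or_pos (e - a) with h | h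
  · rw [h]; simp
  · have hm : (0 : ℝ) < ((e - a : ℕ) : ℝ) := by exact_mod_cast h
    have he' : (0 : ℝ) < e := by exact_mod_cast he
    have e0 : (e : ℝ) = ((e - a : ℕ) : ℝ) + a := by
      rw [← Nat.cast_add]; congr 1; omega
    have e1 : K / ((e - a : ℕ) : ℝ) = K / e * (1 + a / ((e - a : ℕ) : ℝ)) := by
      have : (1 : ℝ) + a / ((e - a : ℕ) : ℝ) = e / ((e - a : ℕ) : ℝ) := by
        rw [e0]; field_simp
      rw [this]; field_simp
    rw [e1, mul_pow]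
    refine mul_le_mul_of_nonneg_left ?_ (by positivity)
    calc (1 + (a : ℝ) / ((e - a : ℕ) : ℝ)) ^ (e - a)
        ≤ (Real.exp (a / ((e - a : ℕ) : ℝ))) ^ (e - a) :=
          pow_le_pow_left₀ (by positivity) (by
            linarith [Real.add_one_le_exp ((a : ℝ) / ((e - a : ℕ) : ℝ))]) _
      _ = Real.exp a := by
          rw [← Real.exp_nat_mul]
          congr 1
          field_simp

/-- the numerical step for `a` pinned legs -/
lemma num_step (e a k n : ℕ) (hae : a ≤ e) (he : 1 ≤ e) (hk : 1 ≤ k) (M K A D : ℝ)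
    (hM : 1 ≤ M) (hK : 0 < K) (hA : 0 < A)
    (hN1 : 4 * Real.exp D * (8 * k * e / K) ^ (e * k) ≤ 1)
    (hN2 : 4 * n * (8 * k * e / K * (Real.exp 1 * M ^ 2)) ^ k ≤ 1) :
    Real.exp D * (n ^ a * ((2 * (4 * (k : ℝ)) ^ (2 * k)) ^ a *
        ((8 * (k : ℝ)) ^ (e - a) * (2 ^ a * (2 ^ a * ((A * M ^ a) ^ 2 *
          (K / ((e - a : ℕ) : ℝ)) ^ (e - a))))) ^ k))
      ≤ 1 / 4 * (1 / 2) ^ a * (A ^ 2 * ((K / e) ^ e) ^ 2) ^ k := by
  have he' : (0 : ℝ) < e := by exact_mod_cast he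
  have hk' : (0 : ℝ) < k := by exact_mod_cast hk
  set θ : ℝ := 8 * k * e / K with hθ
  have hθ0 : 0 < θ := by positivity
  have hr := pow_ratio e a hae he K hK
  -- inner bracket
  have hB : (8 * (k : ℝ)) = θ * (K / e) := by rw [hθ]; field_simp
  have h1 : (4 * (k : ℝ)) ^ (2 * a) * ((8 * (k : ℝ)) ^ (e - a) * (2 ^ a * (2 ^ a * ((A * M ^ a) ^ 2 *
          (K / ((e - a : ℕ) : ℝ)) ^ (e - a)))))
      ≤ (A ^ 2 * ((K / e) ^ e) ^ 2) * (θ ^ (e + a) * (Real.exp 1 * M ^ 2) ^ a) := by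
    have e1 : (4 * (k : ℝ)) ^ (2 * a) * ((8 * (k : ℝ)) ^ (e - a) * (2 ^ a * (2 ^ a *
        ((A * M ^ a) ^ 2 * (K / ((e - a : ℕ) : ℝ)) ^ (e - a)))))
        = (8 * (k : ℝ)) ^ (e + a) * (A ^ 2 * (M ^ 2) ^ a) * (K / ((e - a : ℕ) : ℝ)) ^ (e - a) := by
      have e2 : (4 * (k : ℝ)) ^ (2 * a) * (2 ^ a * 2 ^ a) = (8 * (k : ℝ)) ^ (2 * a) := by
        rw [← mul_pow, pow_mul, ← mul_pow, pow_mul]
        congr 1; ring
      have e3 : (8 * (k : ℝ)) ^ (e + a) = (8 * (k : ℝ)) ^ (e - a) * (8 * (k : ℝ)) ^ (2 * a) := by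
        rw [← pow_add]; congr 1; omega
      have e4 : (A * M ^ a) ^ 2 = A ^ 2 * (M ^ 2) ^ a := by
        rw [mul_pow, ← pow_mul, ← pow_mul, mul_comm a 2]
      rw [e3, ← e2, e4]; ring
    rw [e1]
    have e5 : (8 * (k : ℝ)) ^ (e + a) * (K / e) ^ (e - a)
        = θ ^ (e + a) * ((K / e) ^ e) ^ 2 := by
      rw [hB, mul_pow, mul_assoc, ← pow_add, ← pow_mul]
      congr 2; omega
    calc (8 * (k : ℝ)) ^ (e + a) * (A ^ 2 * (M ^ 2) ^ a) * (K / ((e - a : ℕ) : ℝ)) ^ (e - a)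
        ≤ (8 * (k : ℝ)) ^ (e + a) * (A ^ 2 * (M ^ 2) ^ a) * ((K / e) ^ (e - a) * Real.exp a) :=
          mul_le_mul_of_nonneg_left hr (by positivity)
      _ = ((8 * (k : ℝ)) ^ (e + a) * (K / e) ^ (e - a)) * (A ^ 2 * ((M ^ 2) ^ a * Real.exp a)) := by
          ring
      _ = _ := by
          rw [e5, mul_pow, ← Real.exp_nat_mul]
          ring_nf
  -- powers
  have h2 : (n : ℝ) ^ a * ((2 * (4 * (k : ℝ)) ^ (2 * k)) ^ a *
        ((8 * (k : ℝ)) ^ (e - a) * (2 ^ a * (2 ^ a * ((A * M ^ a) ^ 2 *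
          (K / ((e - a : ℕ) : ℝ)) ^ (e - a))))) ^ k)
      ≤ (2 * n) ^ a * ((A ^ 2 * ((K / e) ^ e) ^ 2) * (θ ^ (e + a) * (Real.exp 1 * M ^ 2) ^ a)) ^ k := by
    have e6 : (n : ℝ) ^ a * ((2 * (4 * (k : ℝ)) ^ (2 * k)) ^ a *
        ((8 * (k : ℝ)) ^ (e - a) * (2 ^ a * (2 ^ a * ((A * M ^ a) ^ 2 *
          (K / ((e - a : ℕ) : ℝ)) ^ (e - a))))) ^ k)
        = (2 * n) ^ a * ((4 * (k : ℝ)) ^ (2 * a) * ((8 * (k : ℝ)) ^ (e - a) * (2 ^ a * (2 ^ a *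
          ((A * M ^ a) ^ 2 * (K / ((e - a : ℕ) : ℝ)) ^ (e - a)))))) ^ k := by
      have e7 : (2 * (4 * (k : ℝ)) ^ (2 * k)) ^ a = 2 ^ a * ((4 * (k : ℝ)) ^ (2 * a)) ^ k := by
        rw [mul_pow, ← pow_mul, ← pow_mul]
        congr 2; ring
      rw [e7, mul_pow ((4 * (k : ℝ)) ^ (2 * a)), mul_pow 2 (n : ℝ)]
      ring
    rw [e6]
    refine mul_le_mul_of_nonneg_left ?_ (by positivity)
    refine pow_le_pow_left₀ ?_ h1 k
    positivity
  have h3 : Real.exp D * ((2 * (n : ℝ)) ^ a * (θ ^ (e + a) * (Real.exp 1 * M ^ 2) ^ a) ^ k)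
      ≤ 1 / 4 * (1 / 2) ^ a := by
    have e8 : Real.exp D * ((2 * (n : ℝ)) ^ a * (θ ^ (e + a) * (Real.exp 1 * M ^ 2) ^ a) ^ k)
        = (Real.exp D * θ ^ (e * k)) * (2 * n * (θ * (Real.exp 1 * M ^ 2)) ^ k) ^ a := by
      have e12 : (θ ^ (e + a) * (Real.exp 1 * M ^ 2) ^ a) ^ k
          = θ ^ (e * k) * ((θ * (Real.exp 1 * M ^ 2)) ^ k) ^ a := by
        generalize Real.exp 1 * M ^ 2 = Y
        rw [mul_pow (θ ^ (e + a)), ← pow_mul, ← pow_mul, ← pow_mul, mul_pow θ Y, add_mul, pow_add,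
          mul_comm a k]
        ring
      rw [e12, mul_pow (2 * (n : ℝ)) _ a]
      ring
    rw [e8]
    have e9 : Real.exp D * θ ^ (e * k) ≤ 1 / 4 := by linarith
    have e10 : 2 * (n : ℝ) * (θ * (Real.exp 1 * M ^ 2)) ^ k ≤ 1 / 2 := by linarith
    have e11 : 0 ≤ 2 * (n : ℝ) * (θ * (Real.exp 1 * M ^ 2)) ^ k := by positivity
    exact mul_le_mul e9 (pow_le_pow_left₀ e11 e10 a) (by positivity) (by norm_num)
  calc Real.exp D * ((n : ℝ) ^ a * ((2 * (4 * (k : ℝ)) ^ (2 * k)) ^ a *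
        ((8 * (k : ℝ)) ^ (e - a) * (2 ^ a * (2 ^ a * ((A * M ^ a) ^ 2 *
          (K / ((e - a : ℕ) : ℝ)) ^ (e - a))))) ^ k))
      ≤ Real.exp D * ((2 * n) ^ a * ((A ^ 2 * ((K / e) ^ e) ^ 2)
          * (θ ^ (e + a) * (Real.exp 1 * M ^ 2) ^ a)) ^ k) :=
        mul_le_mul_of_nonneg_left h2 (Real.exp_pos D).le
    _ = (Real.exp D * ((2 * (n : ℝ)) ^ a * (θ ^ (e + a) * (Real.exp 1 * M ^ 2) ^ a) ^ k))
          * (A ^ 2 * ((K / e) ^ e) ^ 2) ^ k := by rw [mul_pow]; ring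
    _ ≤ 1 / 4 * (1 / 2) ^ a * (A ^ 2 * ((K / e) ^ e) ^ 2) ^ k :=
        mul_le_mul_of_nonneg_right h3 (by positivity)

end num

end Vale.Agent.P042.H956
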